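import Mathlib
import Claimed.Prelude.Def_0466

/-!
# Row 292 (and 290), unit BETHE: definitions

The six-vertex model `a = b = 1`, weight `c` on the torus `ZMod M × ZMod L` of `Def_0466`, by SECTORS:
every column of horizontal edges carries exactly `n` right arrows (`Def_0466` has `n = L / 2`).

* slope of the unit height: `s = (L - 2 n) / L`; for `L = 2 * l`, `n = l - m`: `s = m / l`;
* free energy per site `f (s) = lim_L lim_M (M L)⁻¹ log Z (M, L, n)`;
* output of the unit: `f (s) - f (0) = - arcsin (c / 2) * s ^ 2 / 2 + o (s ^ 2)`.
-/

namespace Claimed.Agent.R292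

open Claims.C0466

/-- Ice rule, and exactly `n` right arrows in every column of horizontal edges. -/
def baSector {M L : ℕ} (n : ℕ) (ω : ZMod M × ZMod L × Bool → Bool) : Prop :=
  (∀ a b : ℤ, svInCount ω a b = 2) ∧
    ∀ i : ℤ, ((Finset.range L).filter (fun j : ℕ => svH ω i (j : ℤ) = true)).card = n

open Classical in
/-- Partition function of the sector `n` on the `M × L` torus. -/
noncomputable def baZ (c : ℝ) (M L n : ℕ) : ℝ :=
  ∑' ω : ZMod M × ZMod L × Bool → Bool, if baSector n ω then c ^ svNumC ω else 0

/-- The balanced sector is the admissibility of `Def_0466`. -/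
theorem baSector_half_iff {M l : ℕ} (ω : ZMod M × ZMod (2 * l) × Bool → Bool) :
    baSector l ω ↔ svAdmissible ω := by
  unfold baSector svAdmissible
  refine and_congr_right fun _ => forall_congr' fun i => ?_
  omega

end Claimed.Agent.R292
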