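import Claimed.Prelude.Def_0466
import Claimed.Prelude.Def_0468
import Claimed.Agent.R291.Top.Mom

/-!
# Row 292 (S0540), Defs/Top : THE VOCABULARY OF THE TOP CUT      (owner helper24, head of cell C1; prefix `at`/`sv` + `r292`)

* `AtFlatGFF t v`   all moments of the frozen Ashkin-Teller pairing converge, in EVERY Jordan domain and for every admissible
                    approximation, to the Wick numbers of variance `v * ∫_D φ u`   (AT paper, Theorem 6.1 in moment form).
* `svAdmN n ω`      ice rule on the torus + every column of horizontal edges has exactly `n` arrows `true`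
                    (the frozen `svAdmissible` of Def_0466 is the case `2 n = L`).
* `svZN c M L n`    partition function of that sector, weights `(1,1,c)`.
* `SvStiff c A`     the torus stiffness: `(log Z(M,2L,L-m) - log Z(M,2L,L)) / (2 L M) = -(A/2) s^2 (1+o(1))`, `m = ⌊s L⌋`,
                    in the order `M → ∞`, then `L → ∞`, then `s ↓ 0`   (`A = -f''(0)`; slope `s = I_col / (2L) = m / L`).
-/

set_option autoImplicit false

namespace Claimed.Agent.R292

open MeasureTheory ProbabilityTheory Filter Topology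
open Claims Claimed.Agent.R291

/-- flat-domain GFF limit, moment form, with the constant `v`. -/
def AtFlatGFF (t v : ℝ) : Prop :=
  ∀ (D : Set (ℝ × ℝ)), IsOpen D → Bornology.IsBounded D →
    (∃ γ : Circle → ℝ × ℝ, Continuous γ ∧ Function.Injective γ ∧ Set.range γ = frontier D) →
  ∀ (δ : ℕ → ℝ) (F : ℕ → Finset (ℤ × ℤ)), C0468.IsAdmissibleApprox D δ F →
  ∀ φ : ℝ × ℝ → ℝ, ContDiff ℝ ((⊤ : ℕ∞) : WithTop ℕ∞) φ → HasCompactSupport φ → tsupport φ ⊆ D →
  ∀ u : ℝ × ℝ → ℝ, ContDiffOn ℝ 2 u D → ContinuousOn u (closure D) →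
    (∀ z ∈ frontier D, u z = 0) → (∀ z ∈ D, -C0468.lap2 u z = φ z) →
  ∀ k : ℕ, Tendsto (fun n => C0468.atExpect t (δ n) (F n) φ (fun s => s ^ k)) atTop
    (𝓝 (tmmWick (v * ∫ z in D, φ z * u z) k))

/-- ice rule + `n` arrows `true` in every column of horizontal edges. -/
def svAdmN {M L : ℕ} (n : ℕ) (ω : ZMod M × ZMod L × Bool → Bool) : Prop :=
  (∀ a b : ℤ, C0466.svInCount ω a b = 2) ∧
    ∀ i : ℤ, ((Finset.range L).filter (fun j : ℕ => C0466.svH ω i (j : ℤ) = true)).card = n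

open Classical in
/-- partition function of the sector `n` on the `M × L` torus. -/
noncomputable def svZN (c : ℝ) (M L n : ℕ) : ℝ :=
  ∑' ω : ZMod M × ZMod L × Bool → Bool, if svAdmN n ω then c ^ C0466.svNumC ω else 0

/-- torus stiffness `A = -f''(0)`. -/
def SvStiff (c A : ℝ) : Prop :=
  ∀ ε : ℝ, 0 < ε → ∃ s₀ : ℝ, 0 < s₀ ∧ ∀ s : ℝ, 0 < s → s < s₀ →
    ∀ᶠ L : ℕ in atTop, ∀ᶠ M : ℕ in atTop,
      |(Real.log (svZN c M (2 * L) (L - ⌊s * L⌋₊)) - Real.log (svZN c M (2 * L) L)) / (2 * L * M)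
        + A / 2 * s ^ 2| ≤ ε * s ^ 2

/-- the stiffness is unique. -/
theorem svStiff_unique {c A A' : ℝ} (h : SvStiff c A) (h' : SvStiff c A') : A = A' := by
  by_contra hne
  have hpos : 0 < |A - A'| := abs_pos.2 (sub_ne_zero.2 hne)
  obtain ⟨s₀, hs₀, H⟩ := h (|A - A'| / 8) (by positivity)
  obtain ⟨s₁, hs₁, H'⟩ := h' (|A - A'| / 8) (by positivity)
  set s := min s₀ s₁ / 2 with hs
  have hm : 0 < min s₀ s₁ := lt_min hs₀ hs₁
  have hs0 : 0 < s := by positivity
  have hsa : s < s₀ := lt_of_lt_of_le (by rw [hs]; linarith) (min_le_left _ _)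
  have hsb : s < s₁ := lt_of_lt_of_le (by rw [hs]; linarith) (min_le_right _ _)
  obtain ⟨L, hL, hL'⟩ := ((H s hs0 hsa).and (H' s hs0 hsb)).exists
  obtain ⟨M, hM, hM'⟩ := (hL.and hL').exists
  set X := (Real.log (svZN c M (2 * L) (L - ⌊s * L⌋₊)) - Real.log (svZN c M (2 * L) L)) / (2 * L * M) with hX
  have h1 : |(X + A / 2 * s ^ 2) - (X + A' / 2 * s ^ 2)| ≤ |A - A'| / 8 * s ^ 2 + |A - A'| / 8 * s ^ 2 :=
    (abs_sub _ _).trans (add_le_add hM hM')
  have h2 : (X + A / 2 * s ^ 2) - (X + A' / 2 * s ^ 2) = (A - A') * (s ^ 2 / 2) := by ring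
  rw [h2, abs_mul, abs_of_pos (by positivity : 0 < s ^ 2 / 2)] at h1
  have hs2 : 0 < s ^ 2 := by positivity
  nlinarith [mul_pos hpos hs2]

end Claimed.Agent.R292
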