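import Claimed.Agent.R292.Defs.Top

/-!
# Row 292 (S0540), Defs/Bridge : VOCABULARY OF UNIT BRIDGE      (heads helper27 + helper243; typed by helper243; prefix `brg`)

* `svDF c M L m`      `(log Z(M,2L,L-m) - log Z(M,2L,L)) / (2 L M)`: free-energy difference per site, sector of vertical height winding `2m`.
* `SvStiffLe / SvStiffGe c A`   the two halves of `SvStiff c A` of Defs/Top;  `brg_stiff_of_le_ge` glues them (PROVED).
-/

set_option autoImplicit false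

namespace Claimed.Agent.R292

open Filter Topology

/-- free-energy difference per site between the sector `L - m` and the balanced sector `L` of the `M × 2L` torus -/
noncomputable def svDF (c : ℝ) (M L m : ℕ) : ℝ :=
  (Real.log (svZN c M (2 * L) (L - m)) - Real.log (svZN c M (2 * L) L)) / (2 * L * M)

/-- `f(s) - f(0) ≤ -(A/2) s² + ε s²` -/
def SvStiffLe (c A : ℝ) : Prop :=
  ∀ ε : ℝ, 0 < ε → ∃ s₀ : ℝ, 0 < s₀ ∧ ∀ s : ℝ, 0 < s → s < s₀ →
    ∀ᶠ L : ℕ in atTop, ∀ᶠ M : ℕ in atTop, svDF c M L ⌊s * L⌋₊ ≤ -(A / 2 * s ^ 2) + ε * s ^ 2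

/-- `f(s) - f(0) ≥ -(A/2) s² - ε s²` -/
def SvStiffGe (c A : ℝ) : Prop :=
  ∀ ε : ℝ, 0 < ε → ∃ s₀ : ℝ, 0 < s₀ ∧ ∀ s : ℝ, 0 < s → s < s₀ →
    ∀ᶠ L : ℕ in atTop, ∀ᶠ M : ℕ in atTop, -(A / 2 * s ^ 2) - ε * s ^ 2 ≤ svDF c M L ⌊s * L⌋₊

theorem brg_stiff_of_le_ge {c A : ℝ} (h1 : SvStiffLe c A) (h2 : SvStiffGe c A) : SvStiff c A := by
  intro ε hε
  obtain ⟨s1, hs1, H1⟩ := h1 ε hε
  obtain ⟨s2, hs2, H2⟩ := h2 ε hε
  refine ⟨min s1 s2, lt_min hs1 hs2, fun s hs hlt => ?_⟩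
  filter_upwards [H1 s hs (lt_of_lt_of_le hlt (min_le_left _ _)),
    H2 s hs (lt_of_lt_of_le hlt (min_le_right _ _))] with L a b
  filter_upwards [a, b] with M a b
  unfold svDF at a b
  rw [abs_le]
  constructor <;> linarith

end Claimed.Agent.R292
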