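import Claimed.Statements.S0540
import Claimed.Statements.S0538

/-!
# Row 292 (S0540), Defs/RSW : VOCABULARY OF UNIT RSW (head helper122; prefix `rsw`, `Rsw`)

The inputs which the AT paper imports from [DKLM2026] (not in the box): Thm 16.4 (circuits), Thm 17.1 (plane law of flat exhaustions),
Lemma 18.7(iii) + Thm 2.2 (its height gradient = balanced torus limit), Thm 4.5 (log regularity; here in the smeared form of R291/Exit/Mom*).

Carrier = the lattice of Def_0468: primal vertices `ℤ × ℤ`, faces `ℤ × ℤ` (a face = its bottom-left corner), a finite set of faces `F`.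
An edge is `e : (ℤ × ℤ) × Bool`: `(v, false)` joins `v` to `v + (1,0)`, its two faces are `v` and `v - (0,1)`;
`(v, true)` joins `v` to `v + (0,1)`, its two faces are `v` and `v - (1,0)`      (the conventions of `atDisagreements`).
A configuration is `(S, D, O)`: `S` = set of PLUS primal spins, `D` = set of PLUS face spins, `O` = set of open `W` edges (TEX 03-spatial, eq:spatial-edge-weight, `s` primal, `d` dual).
-/

set_option autoImplicit false

namespace Claimed.Agent.R292

open Claims Claims.C0468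

/-- the second endpoint of an edge -/
def rswEnd (e : (ℤ × ℤ) × Bool) : ℤ × ℤ := if e.2 then (e.1.1, e.1.2 + 1) else (e.1.1 + 1, e.1.2)

/-- the second face of an edge (the first one is `e.1`) -/
def rswCo (e : (ℤ × ℤ) × Bool) : ℤ × ℤ := if e.2 then (e.1.1 - 1, e.1.2) else (e.1.1, e.1.2 - 1)

/-- the interior edges of `F`: both faces in `F` -/
def rswInt (F : Finset (ℤ × ℤ)) : Finset ((ℤ × ℤ) × Bool) :=
  (F ×ˢ (Finset.univ : Finset Bool)).filter (fun e => rswCo e ∈ F)

/-- a configuration -/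
structure RswCfg where
  S : Finset (ℤ × ℤ)
  D : Finset (ℤ × ℤ)
  O : Finset ((ℤ × ℤ) × Bool)

/-- TEX eq:spatial-edge-weight: the factor of one interior edge pair -/
noncomputable def rswFac (t : ℝ) (ω : RswCfg) (e : (ℤ × ℤ) × Bool) : ℝ :=
  open Classical in
  if e ∈ ω.O then (if (e.1 ∈ ω.S ↔ rswEnd e ∈ ω.S) then t else 0)
  else if (e.1 ∈ ω.D ↔ rswCo e ∈ ω.D) then (if (e.1 ∈ ω.S ↔ rswEnd e ∈ ω.S) then 1 - t else t) else 0

/-- the boundary condition: the primal spin equals `b` on the polygon -/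
def RswBc (F : Finset (ℤ × ℤ)) (b : Bool) (ω : RswCfg) : Prop :=
  ∀ v ∈ cornersOf F, OnPolygon F v → (v ∈ ω.S ↔ b = true)

/-- weight of a configuration in the flat problem `(F, b)` -/
noncomputable def rswWt (t : ℝ) (F : Finset (ℤ × ℤ)) (b : Bool) (ω : RswCfg) : ℝ :=
  open Classical in
  if RswBc F b ω then ∏ e ∈ rswInt F, rswFac t ω e else 0

/-- unnormalised sum -/
noncomputable def rswSum (t : ℝ) (F : Finset (ℤ × ℤ)) (b : Bool) (X : RswCfg → ℝ) : ℝ :=
  ∑ S ∈ (cornersOf F).powerset, ∑ D ∈ F.powerset, ∑ O ∈ (rswInt F).powerset,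
    rswWt t F b ⟨S, D, O⟩ * X ⟨S, D, O⟩

/-- expectation in the flat problem `(F, b)` -/
noncomputable def rswE (t : ℝ) (F : Finset (ℤ × ℤ)) (b : Bool) (X : RswCfg → ℝ) : ℝ :=
  rswSum t F b X / rswSum t F b (fun _ => 1)

/-- probability in the flat problem `(F, b)` -/
noncomputable def rswP (t : ℝ) (F : Finset (ℤ × ℤ)) (b : Bool) (L : RswCfg → Prop) : ℝ :=
  open Classical in rswE t F b (fun ω => if L ω then 1 else 0)

/-- the edge `e` is an open `W` edge whose two endpoints have colour `a` -/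
def RswGood (a : Bool) (ω : RswCfg) (e : (ℤ × ℤ) × Bool) : Prop :=
  e ∈ ω.O ∧ (e.1 ∈ ω.S ↔ a = true) ∧ (rswEnd e ∈ ω.S ↔ a = true)

/-- one step of a dual path inside `F` which crosses an edge that is NOT good -/
def RswStep (F : Finset (ℤ × ℤ)) (a : Bool) (ω : RswCfg) (f g : ℤ × ℤ) : Prop :=
  f ∈ F ∧ g ∈ F ∧ ∃ e, ((f = e.1 ∧ g = rswCo e) ∨ (g = e.1 ∧ f = rswCo e)) ∧ ¬ RswGood a ω e

/-- the good edges of colour `a` separate the faces `A` from the faces `B` inside `F` -/
def RswSep (F : Finset (ℤ × ℤ)) (a : Bool) (ω : RswCfg) (A B : Finset (ℤ × ℤ)) : Prop :=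
  ∀ f ∈ A, ∀ g ∈ B, ¬ Relation.ReflTransGen (RswStep F a ω) f g

/-- the square of faces `[z - n, z + n)²` -/
noncomputable def rswBox (z : ℤ × ℤ) (n : ℕ) : Finset (ℤ × ℤ) :=
  Finset.Ico (z.1 - n) (z.1 + n) ×ˢ Finset.Ico (z.2 - n) (z.2 + n)

/-- the faces of `F` which have a corner on the polygon -/
noncomputable def rswLayer (F : Finset (ℤ × ℤ)) : Finset (ℤ × ℤ) :=
  open Classical in
  F.filter (fun f => ∃ v ∈ ({f, (f.1 + 1, f.2), (f.1, f.2 + 1), (f.1 + 1, f.2 + 1)} : Finset (ℤ × ℤ)), OnPolygon F v)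

/-- the region of `F` is bounded by a Jordan curve (the condition of `IsAdmissibleApprox`, mesh one) -/
def RswJordan (F : Finset (ℤ × ℤ)) : Prop :=
  ∃ γ : Circle → ℝ × ℝ, Continuous γ ∧ Function.Injective γ ∧ Set.range γ = frontier (faceRegionSq 1 F)

/-- the spins of Def_0468 read off a configuration -/
def rswTau (F : Finset (ℤ × ℤ)) (ω : RswCfg) : cornersOf F → Bool := fun v => decide (v.1 ∈ ω.S)

def rswTauD (F : Finset (ℤ × ℤ)) (ω : RswCfg) : F → Bool := fun f => decide (f.1 ∈ ω.D)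

/-- the height of Def_0468 (primal vertices; `H`, steps of size one between neighbouring primal vertices) -/
noncomputable def rswH (F : Finset (ℤ × ℤ)) (ω : RswCfg) : ℤ × ℤ → ℝ := atHeight (rswTau F ω) (rswTauD F ω)

/-- `X` reads the configuration only inside the finite windows `R` (sites and faces) and `R'` (edges) -/
def RswLoc (R : Finset (ℤ × ℤ)) (R' : Finset ((ℤ × ℤ) × Bool)) (X : RswCfg → ℝ) : Prop :=
  ∀ ω ω' : RswCfg, ω.S ∩ R = ω'.S ∩ R → ω.D ∩ R = ω'.D ∩ R → ω.O ∩ R' = ω'.O ∩ R' → X ω = X ω'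

/-- smearing of radius `a`, centre `z0`, weight bound `A` (as `MomSm` of R291) -/
structure RswSm (z0 : ℤ × ℤ) (a : ℕ) (A : ℝ) (w : (ℤ × ℤ) →₀ ℝ) : Prop where
  supp : w.support ⊆ rswBox z0 a
  l1 : ∑ u ∈ w.support, |w u| ≤ A
  sup : ∀ u, |w u| * (a : ℝ) ^ 2 ≤ A

/-- the statistic `∑ w(v) H(v)` -/
noncomputable def rswArr (w : (ℤ × ℤ) →₀ ℝ) (h : ℤ × ℤ → ℝ) : ℝ := w.sum (fun v x => x * h v)

/-- AT primal vertex -> face of the six-vertex lattice of Def_0466 (corner lattice, rotated by 45 degrees) -/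
def rswRot (v : ℤ × ℤ) : ℤ × ℤ := (v.1 + v.2, v.1 - v.2)

/-- the equation lemmas of the definitions of this file are generated HERE (RULES.md, rule 6) -/
theorem rsw_defs_eqns_cite : True := by
  have := @rswEnd.eq_1
  have := @rswCo.eq_1
  have := @rswInt.eq_1
  have := @rswFac.eq_1
  have := @RswBc.eq_1
  have := @rswWt.eq_1
  have := @rswSum.eq_1
  have := @rswE.eq_1
  have := @rswP.eq_1
  have := @RswGood.eq_1
  have := @RswStep.eq_1
  have := @RswSep.eq_1
  have := @rswBox.eq_1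
  have := @rswLayer.eq_1
  have := @RswJordan.eq_1
  have := @rswTau.eq_1
  have := @rswTauD.eq_1
  have := @rswH.eq_1
  have := @RswLoc.eq_1
  have := @rswArr.eq_1
  have := @rswRot.eq_1
  trivial

end Claimed.Agent.R292
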