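import Mathlib
import Claimed.Prelude.Def_0468
import Claimed.Agent.R292.Defs.RSW

/-!
# Row 292 (S0540), Defs/MODEL : SIX-VERTEX HEIGHT LAWS WITH BOUNDARY VALUES ON THE CORNER LATTICE      (owner helper191, head of unit MODEL; prefix `mdl` / `Mdl`)

THE LATTICE.  `MdlS = ℤ × ℤ` is the corner lattice of the AT paper (Sec 2.2) turned by 45 degrees:
  primal corner `v = (x,y)`  ↦ `mdlV v = (x+y, y-x)`      (sites with EVEN coordinate sum),
  face `f = (x,y)` (lower left corner `f`) ↦ `mdlF f = (x+y+1, y-x)`      (sites with ODD coordinate sum);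
  "`v` is a corner of `f`"  ⇔  `mdlV v`, `mdlF f` are nearest neighbours.   A unit square (PLAQUETTE, named by its lower left site `p`)
  = one pair of mutually dual edges = one vertex of the six-vertex model; its two diagonals are the primal edge and the dual edge.
HEIGHTS are TOTAL functions `h : MdlS → ℤ` in the normalisation `K = 2 H` (steps `±1`).  A finite-volume law has a finite FREE set `A`,
a boundary function `b` and a finite set `Q` of WEIGHTED plaquettes: `h = b` off `A`, `|h u - h u'| = 1` on every edge meeting `A`, weight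
`c ^ #{p ∈ Q : both diagonals of p are flat}` (`c = 1/t`): `mdlEQ c Q A b`.  `mdlE c A b` takes `Q = mdlPl A` = all plaquettes meeting `A`.
DLR holds for every `A' ⊆ A` with THE SAME `Q`.  Boundary functions are GLOBAL HEIGHTS (`MdlHt b`: steps `±1` on every edge, even on even sites), so that every
configuration is a global height and every plaquette is one of the six types.  All domains share ONE configuration type (as in R291/Defs/Ht).
THE FROZEN LAW of Def_0468 is `mdlFz t⁻¹ F = mdlEQ t⁻¹ (mdlQ F) (mdlDom F) mdlRef`: free set = interior corners + faces of `F`; boundary function `0` on the corners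
(`1` on the faces outside `F`: never read); weighted plaquettes `mdlQ F` = the primal edges with BOTH adjacent faces in `F` (boundary edges carry weight `1` in Def_0468).
-/

set_option autoImplicit false

namespace Claimed.Agent.R292

open Claims Claims.C0468 Filter Topology

/-- sites of the (turned) corner lattice -/
abbrev MdlS : Type := ℤ × ℤ

/-- the four directions -/
def mdlDirs : Finset MdlS := {(1, 0), (-1, 0), (0, 1), (0, -1)}

/-- primal corner ↦ even site -/
def mdlV (v : ℤ × ℤ) : MdlS := (v.1 + v.2, v.2 - v.1)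

/-- face ↦ odd site -/
def mdlF (f : ℤ × ℤ) : MdlS := (f.1 + f.2 + 1, f.2 - f.1)

/-- `h` is admissible for the free set `A` and the boundary function `b` -/
def MdlAdm (A : Finset MdlS) (b h : MdlS → ℤ) : Prop :=
  (∀ u, u ∉ A → h u = b u) ∧ ∀ u ∈ A, ∀ d ∈ mdlDirs, |h (u + d) - h u| = 1

open Classical in
/-- the finite set of admissible heights -/
noncomputable def mdlCfg (A : Finset MdlS) (b : MdlS → ℤ) : Finset (MdlS → ℤ) :=
  if hf : {h | MdlAdm A b h}.Finite then hf.toFinset else ∅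

/-- the plaquettes (lower left sites) which meet `A` -/
def mdlPl (A : Finset MdlS) : Finset MdlS :=
  A.biUnion fun u => {u, u - (1, 0), u - (0, 1), u - (1, 1)}

/-- the diagonal `p , p + (1,1)` of the plaquette `p` is flat -/
def MdlD1 (h : MdlS → ℤ) (p : MdlS) : Prop := h p = h (p + (1, 1))

/-- the diagonal `p + (1,0) , p + (0,1)` of the plaquette `p` is flat -/
def MdlD2 (h : MdlS → ℤ) (p : MdlS) : Prop := h (p + (1, 0)) = h (p + (0, 1))

/-- the plaquette `p` is of type `c`: both diagonals are flat -/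
def MdlC (h : MdlS → ℤ) (p : MdlS) : Prop := MdlD1 h p ∧ MdlD2 h p

open Classical in
/-- number of plaquettes of type `c` in `Q` -/
noncomputable def mdlN (Q : Finset MdlS) (h : MdlS → ℤ) : ℕ := (Q.filter fun p => MdlC h p).card

/-- weight -/
noncomputable def mdlWt (c : ℝ) (Q : Finset MdlS) (h : MdlS → ℤ) : ℝ := c ^ mdlN Q h

/-- partition function, weighted plaquettes `Q` -/
noncomputable def mdlZQ (c : ℝ) (Q A : Finset MdlS) (b : MdlS → ℤ) : ℝ := ∑ h ∈ mdlCfg A b, mdlWt c Q h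

/-- expectation, weighted plaquettes `Q` (`0` when the boundary function is infeasible) -/
noncomputable def mdlEQ (c : ℝ) (Q A : Finset MdlS) (b : MdlS → ℤ) (G : (MdlS → ℤ) → ℝ) : ℝ :=
  (∑ h ∈ mdlCfg A b, mdlWt c Q h * G h) / mdlZQ c Q A b

/-- THE GIBBS SPECIFICATION: all plaquettes meeting `A` are weighted -/
noncomputable def mdlE (c : ℝ) (A : Finset MdlS) (b : MdlS → ℤ) (G : (MdlS → ℤ) → ℝ) : ℝ :=
  mdlEQ c (mdlPl A) A b G

open Classical in
/-- probability of an event -/
noncomputable def mdlP (c : ℝ) (A : Finset MdlS) (b : MdlS → ℤ) (K : (MdlS → ℤ) → Prop) : ℝ :=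
  mdlE c A b fun h => if K h then 1 else 0

open Classical in
/-- conditional expectation given an event -/
noncomputable def mdlEc (c : ℝ) (A : Finset MdlS) (b : MdlS → ℤ) (K : (MdlS → ℤ) → Prop) (G : (MdlS → ℤ) → ℝ) : ℝ :=
  mdlE c A b (fun h => if K h then G h else 0) / mdlP c A b K

/-- `b` is a global height function: steps `±1` on every edge, even values on the even sites -/
def MdlHt (b : MdlS → ℤ) : Prop :=
  (∀ u, ∀ d ∈ mdlDirs, |b (u + d) - b u| = 1) ∧ ∀ u : MdlS, (b u - (u.1 + u.2)) % 2 = 0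

/-- `G` depends only on the heights on `S` -/
def MdlLoc (S : Finset MdlS) (G : (MdlS → ℤ) → ℝ) : Prop :=
  ∀ h h' : MdlS → ℤ, (∀ u ∈ S, h u = h' u) → G h = G h'

/-- `G` is a gradient observable -/
def MdlGrad (G : (MdlS → ℤ) → ℝ) : Prop := ∀ (h : MdlS → ℤ) (k : ℤ), G (fun u => h u + k) = G h

/-- `G` is increasing -/
def MdlMono (G : (MdlS → ℤ) → ℝ) : Prop := ∀ h h' : MdlS → ℤ, (∀ u, h u ≤ h' u) → G h ≤ G h'

/-- the box `[-R,R]^2` -/
noncomputable def mdlBox (R : ℕ) : Finset MdlS := Finset.Icc (-(R : ℤ)) R ×ˢ Finset.Icc (-(R : ℤ)) R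

/-- the reference height `0 / 1` (even sites `0`, odd sites `1`) -/
def mdlRef (u : MdlS) : ℤ := (u.1 + u.2) % 2

open Classical in
/-- the free set of the frozen law: interior corners and faces of `F` -/
noncomputable def mdlDom (F : Finset (ℤ × ℤ)) : Finset MdlS :=
  ((cornersOf F).filter fun v => ¬ OnPolygon F v).image mdlV ∪ F.image mdlF

/-- the weighted plaquettes of the frozen law: primal edges with both adjacent faces in `F`
(horizontal edge between `f` and the face above: plaquette `mdlF f`; vertical edge between `f` and the face on the left: plaquette `mdlV f`) -/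
def mdlQ (F : Finset (ℤ × ℤ)) : Finset MdlS :=
  (F.filter fun f => (f.1, f.2 + 1) ∈ F).image mdlF ∪ (F.filter fun f => (f.1 - 1, f.2) ∈ F).image mdlV

/-- THE FROZEN LAW in the vocabulary of this file -/
noncomputable def mdlFz (c : ℝ) (F : Finset (ℤ × ℤ)) (G : (MdlS → ℤ) → ℝ) : ℝ :=
  mdlEQ c (mdlQ F) (mdlDom F) mdlRef G

/-- plane expectation of a local gradient observable: limit of the FROZEN (flat, primal wired) laws in the straight boxes of faces `rswBox 0 n`
(decision of 122 + 79, 18:57Z: then existence of the limit = `exit_mdl_dict`-type dictionary + `exit_rsw_plane`) -/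
noncomputable def mdlPln (c : ℝ) (G : (MdlS → ℤ) → ℝ) : ℝ :=
  limUnder atTop fun n : ℕ => mdlFz c (rswBox 0 n) G

/-- the smeared field of the frozen law (`H = K / 2` on the primal corners) -/
noncomputable def mdlSm (δ : ℝ) (F : Finset (ℤ × ℤ)) (φ : ℝ × ℝ → ℝ) (h : MdlS → ℤ) : ℝ :=
  δ ^ 2 * ∑ v ∈ cornersOf F, (h (mdlV v) : ℝ) / 2 * φ (δ * v.1, δ * v.2)

/-! ### the edge representation `(K, W)` of the AT paper, Sec 3 (eq. spatial-edge-weight, multiplied by `c = 1/t`) -/

/-- the `s`-diagonal of the plaquette `p` is flat; `e = true`: the `s`-lattice is the EVEN (primal) one -/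
def MdlSf (e : Bool) (h : MdlS → ℤ) (p : MdlS) : Prop :=
  if ((p.1 + p.2) % 2 = 0) = (e = true) then MdlD1 h p else MdlD2 h p

/-- the transverse (`d`-) diagonal of the plaquette `p` is flat -/
def MdlDf (e : Bool) (h : MdlS → ℤ) (p : MdlS) : Prop := MdlSf (!e) h p

open Classical in
/-- weight of `(h, W)`: `W` open: `1[s flat]`; `W` closed: `(1[s not flat] + (c-1) 1[s flat]) 1[d flat]` -/
noncomputable def mdlWtW (c : ℝ) (e : Bool) (Q W : Finset MdlS) (h : MdlS → ℤ) : ℝ :=
  (∏ p ∈ W, if MdlSf e h p then 1 else 0) *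
    ∏ p ∈ Q \ W, if MdlDf e h p then (if MdlSf e h p then c - 1 else 1) else 0

/-! ### the spatial layer (AT paper Sec 3.2-3.6) in the vocabulary `(S, D, O)` of `Defs/RSW` -/

/-- `L` is EXTERIOR `(s,W)` DATA of the buffer `B` (a set of faces): it reads the primal spins off the open buffer (the polygon of `B` included),
the `W` edges which are not interior edges of `B`, and never the transverse spins `D` -/
def MdlExt (B : Finset (ℤ × ℤ)) (L : RswCfg → Prop) : Prop :=
  ∀ ω ω' : RswCfg, (∀ v, OnPolygon B v → (v ∈ ω.S ↔ v ∈ ω'.S)) → (∀ e, e ∉ rswInt B → (e ∈ ω.O ↔ e ∈ ω'.O)) → (L ω ↔ L ω')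

/-- the edges of `Q`: at least one of the two faces is in `Q` -/
def mdlEd (Q : Finset (ℤ × ℤ)) : Finset ((ℤ × ℤ) × Bool) :=
  (Q ×ˢ (Finset.univ : Finset Bool)) ∪
    (Q.image fun f => ((f.1 + 1, f.2), true)) ∪ (Q.image fun f => ((f.1, f.2 + 1), false))

/-- `ω` shows the complete `(s,W)` pattern of `ω₀` on `Q`: all primal spins and all `W` edge states of `Q` -/
def MdlPat (Q : Finset (ℤ × ℤ)) (ω₀ ω : RswCfg) : Prop :=
  (∀ v ∈ cornersOf Q, (v ∈ ω.S ↔ v ∈ ω₀.S)) ∧ ∀ e ∈ mdlEd Q, (e ∈ ω.O ↔ e ∈ ω₀.O)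

/-- `E` is an event of the FULL spin pair and of `W` in `Q` -/
def MdlIn (Q : Finset (ℤ × ℤ)) (E : RswCfg → Prop) : Prop :=
  ∀ ω ω' : RswCfg, (∀ v ∈ cornersOf Q, (v ∈ ω.S ↔ v ∈ ω'.S)) → (∀ f ∈ Q, (f ∈ ω.D ↔ f ∈ ω'.D)) →
    (∀ e ∈ mdlEd Q, (e ∈ ω.O ↔ e ∈ ω'.O)) → (E ω ↔ E ω')

/-- the plane law (limit of the plus flat boxes; `exit_rsw_plane`: limit of ALL flat exhaustions) -/
noncomputable def mdlPi (t : ℝ) (X : RswCfg → ℝ) : ℝ :=
  limUnder atTop fun n : ℕ => rswE t (rswBox 0 n) true X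

open Classical in
/-- plane probability -/
noncomputable def mdlPiP (t : ℝ) (E : RswCfg → Prop) : ℝ := mdlPi t fun ω => if E ω then 1 else 0

/-- one step of the current `N` inside `R`: two faces of `R` across a CLOSED `W` edge -/
def MdlNStep (R : Finset (ℤ × ℤ)) (ω : RswCfg) (f g : ℤ × ℤ) : Prop :=
  f ∈ R ∧ g ∈ R ∧ ∃ e, ((f = e.1 ∧ g = rswCo e) ∨ (g = e.1 ∧ f = rswCo e)) ∧ e ∉ ω.O

/-- `f`, `g` are in the same component of the current `N` restricted to `R` -/
def MdlNConn (R : Finset (ℤ × ℤ)) (ω : RswCfg) (f g : ℤ × ℤ) : Prop := Relation.ReflTransGen (MdlNStep R ω) f g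

/-- at least `k` distinct components of `N` restricted to `Q₁` meet `Q₀` and reach the boundary layer of `Q₁` (TRANSMISSION count) -/
def MdlTrans (Q₀ Q₁ : Finset (ℤ × ℤ)) (k : ℕ) (ω : RswCfg) : Prop :=
  ∃ T : Finset (ℤ × ℤ), T ⊆ Q₀ ∧ T.card = k ∧ (∀ f ∈ T, ∃ g ∈ rswLayer Q₁, MdlNConn Q₁ ω f g) ∧
    ∀ f ∈ T, ∀ g ∈ T, f ≠ g → ¬ MdlNConn Q₁ ω f g

/-- the order (3.4) `(s, W⁺, -W⁻)` read in the colour `a` (a preorder; blind to `D` and to open edges which are not monochromatic) -/
def MdlLe (a : Bool) (ω ω' : RswCfg) : Prop :=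
  (∀ v, (v ∈ ω.S ↔ a = true) → (v ∈ ω'.S ↔ a = true)) ∧
    (∀ e, RswGood a ω e → RswGood a ω' e) ∧ ∀ e, RswGood (!a) ω' e → RswGood (!a) ω e

/-- `X` is increasing in the order (3.4) of colour `a` -/
def MdlInc (a : Bool) (X : RswCfg → ℝ) : Prop := ∀ ω ω' : RswCfg, MdlLe a ω ω' → X ω ≤ X ω'

/-- prescriptions: primal spins pinned plus / minus, `W` edges prescribed open / closed -/
structure MdlPin where
  Sp : Finset (ℤ × ℤ)
  Sm : Finset (ℤ × ℤ)
  Oo : Finset ((ℤ × ℤ) × Bool)
  Oc : Finset ((ℤ × ℤ) × Bool)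

/-- the configuration satisfies the prescriptions -/
def MdlPin.Holds (K : MdlPin) (ω : RswCfg) : Prop :=
  K.Sp ⊆ ω.S ∧ (∀ v ∈ K.Sm, v ∉ ω.S) ∧ K.Oo ⊆ ω.O ∧ ∀ e ∈ K.Oc, e ∉ ω.O

/-- every prescribed edge has both endpoints pinned ("an edge is revealed only after its endpoint spins") -/
def MdlPin.Ok (K : MdlPin) : Prop :=
  ∀ e ∈ K.Oo ∪ K.Oc, e.1 ∈ K.Sp ∪ K.Sm ∧ rswEnd e ∈ K.Sp ∪ K.Sm

open Classical in
/-- unnormalised expectation under prescriptions -/
noncomputable def mdlSumK (t : ℝ) (F : Finset (ℤ × ℤ)) (b : Bool) (K : MdlPin) (X : RswCfg → ℝ) : ℝ :=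
  rswSum t F b fun ω => if K.Holds ω then X ω else 0

/-- the equation lemmas of the definitions of this file are generated HERE (RULES.md, rule 6) -/
theorem mdl_defs_eqns_cite : True := by
  have := @MdlLe.eq_1
  have := @MdlInc.eq_1
  have := @MdlPin.Holds.eq_1
  have := @MdlPin.Ok.eq_1
  have := @mdlSumK.eq_1
  have := @MdlTrans.eq_1
  have := @MdlExt.eq_1
  have := @mdlEd.eq_1
  have := @MdlPat.eq_1
  have := @MdlIn.eq_1
  have := @mdlPi.eq_1
  have := @mdlPiP.eq_1
  have := @MdlNStep.eq_1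
  have := @MdlNConn.eq_1
  have := @mdlDirs.eq_1
  have := @mdlV.eq_1
  have := @mdlF.eq_1
  have := @MdlAdm.eq_1
  have := @mdlCfg.eq_1
  have := @mdlPl.eq_1
  have := @MdlD1.eq_1
  have := @MdlD2.eq_1
  have := @MdlC.eq_1
  have := @mdlN.eq_1
  have := @mdlWt.eq_1
  have := @mdlZQ.eq_1
  have := @mdlEQ.eq_1
  have := @mdlE.eq_1
  have := @mdlP.eq_1
  have := @mdlEc.eq_1
  have := @MdlHt.eq_1
  have := @mdlQ.eq_1
  have := @mdlFz.eq_1
  have := @MdlLoc.eq_1
  have := @MdlGrad.eq_1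
  have := @MdlMono.eq_1
  have := @mdlBox.eq_1
  have := @mdlRef.eq_1
  have := @mdlPln.eq_1
  have := @mdlDom.eq_1
  have := @mdlSm.eq_1
  have := @MdlSf.eq_1
  have := @MdlDf.eq_1
  have := @mdlWtW.eq_1
  trivial

end Claimed.Agent.R292
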