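import Claimed.Agent.R292.Api
import Claimed.Agent.R292.Defs.Top
import Claimed.Agent.R291.Lim.Ult
import Claimed.Agent.R291.Wick.Diag

/-!
# Row 292 (S0540), Defs/GAUSS : THE VOCABULARY OF UNIT GAUSS (AT paper, Sec 6)      (owner helper181, head of GAUSS; prefix `gauss`/`Gauss`)

Typed on the API of 292 (`at92Adm`, `at92W`, `at92X`: admissible pairs, weight, smeared height) and on the ABSTRACT machines of row 291, which are
generic and PROVED: `lmT` / `LmOk` / `lm_of_T` (ultrafilter limits of mixed moments, Lim/Ult) and `WkData` / `wk_main` (the collision method: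
multilinear + Hoelder + A0 A1 moments + A2 harmonicity + A3 zero trace + A4 collision  ==>  Wick recursion; needs `D` bounded and a classical `u` only, NO smoothness of the boundary).

WARNING (paper, l.404-418 and Prop 6.14 of 06-gaussian.tex): BEFORE the normalisation the constant is SUBSEQUENTIAL.  So every statement which contains
the constant `v` is typed ALONG AN ULTRAFILTER `𝒰` OF MESHES, and `v = v(t, δ, 𝒰)` does not depend on the domain.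

* `gaussM t δ F s`        mixed moment of the smeared heights at one mesh
* `gaussT t δ F 𝒰 s`      its limit along `𝒰`
* `GaussDom D`            the three hypotheses of the frozen statement on `D`
* `GaussSM`  (A0+A1)      TEX[prop:log-moments, lem:flat-tightness]                    producers RSW + MODEL
* `GaussHarm` (A2loc)     TEX[prop:screened-orthogonality] read on moment kernels      producer SCREEN
* `GaussBD`  (A3)         TEX[prop:boundary-decay]                                     producers RSW + JORDAN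
* `GaussDec` (A4)         TEX[prop:plane-green, lem:neutral-pair-mixing, prop:collision-coefficient]   producers SPEC + GAUSS
* `AtFlatU t v δ 𝒰`       the output: Wick moments of variance `v ∫ φ u` in EVERY Jordan domain, along `𝒰`
-/

set_option autoImplicit false

namespace Claimed.Agent.R292

open MeasureTheory Filter Topology Set
open scoped ContDiff
open Claims Claims.C0468 Claimed.Agent.R291

/-- the two frozen Laplacians agree -/
theorem gauss_lap2 : C0468.lap2 = C0467.lap2 := rfl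

/-- the hypotheses of the frozen statement on the domain -/
def GaussDom (D : Set (ℝ × ℝ)) : Prop :=
  IsOpen D ∧ Bornology.IsBounded D ∧ ∃ γ : Circle → ℝ × ℝ, Continuous γ ∧ Function.Injective γ ∧ Set.range γ = frontier D

/-- mixed moment of the smeared heights at one mesh -/
noncomputable def gaussM (t δ : ℝ) (F : Finset (ℤ × ℤ)) (s : Multiset (ℝ × ℝ → ℝ)) : ℝ :=
  lmM (at92Adm F) (at92W t) (fun g p => at92X δ g p) s

/-- the limit functional along `𝒰` -/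
noncomputable def gaussT (t : ℝ) (δ : ℕ → ℝ) (F : ℕ → Finset (ℤ × ℤ)) (𝒰 : Ultrafilter ℕ) (s : Multiset (ℝ × ℝ → ℝ)) : ℝ :=
  lmT 𝒰 (fun n => at92Adm (F n)) (fun _ => at92W t) (fun n g p => at92X (δ n) g p) s

/-- (A0)+(A1) at the discrete level: even moments of a fixed test, and of a test carried by a small disc, with the logarithm -/
structure GaussSM (t : ℝ) (D : Set (ℝ × ℝ)) (δ : ℕ → ℝ) (F : ℕ → Finset (ℤ × ℤ)) : Prop where
  fix : ∀ (m : ℕ) (K : Set (ℝ × ℝ)), IsCompact K → K ⊆ D → ∃ C : ℝ, 0 < C ∧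
    ∀ (M : ℝ) (g : ℝ × ℝ → ℝ), WkTest D g → (∀ y, |g y| ≤ M) → (∀ y, y ∉ K → g y = 0) →
      ∀ᶠ n in atTop, gaussM t (δ n) (F n) (Multiset.replicate (2 * m) g) ≤ C * M ^ (2 * m)
  small : ∀ (m : ℕ) (K : Set (ℝ × ℝ)), IsCompact K → K ⊆ D → ∃ C r0 : ℝ, 0 < C ∧ 0 < r0 ∧ r0 ≤ 1 ∧
    ∀ z ∈ K, ∀ r : ℝ, 0 < r → r ≤ r0 → ∀ (M : ℝ) (g : ℝ × ℝ → ℝ), WkTest D g → (∀ y, |g y| ≤ M) → (∀ y, y ∉ wkBall z r → g y = 0) →
      ∀ᶠ n in atTop, gaussM t (δ n) (F n) (Multiset.replicate (2 * m) g) ≤ C * (M * r ^ 2) ^ (2 * m) * (1 + Real.log (1 / r)) ^ m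

/-- (A2loc) at the discrete level: a Laplacian inserted far from small spectators of ARBITRARY total -/
def GaussHarm (t : ℝ) (D : Set (ℝ × ℝ)) (δ : ℕ → ℝ) (F : ℕ → Finset (ℤ × ℤ)) : Prop :=
  ∀ (z0 : ℝ × ℝ) (ρ : ℝ) (φ : ℝ × ℝ → ℝ) (s : Multiset (ℝ × ℝ → ℝ)), 0 < ρ → wkBall z0 ρ ⊆ D →
    ContDiff ℝ ∞ φ → tsupport φ ⊆ wkBall z0 (ρ / 2000) →
    (∀ g ∈ s, WkTest D g ∧ ∃ (c : ℝ × ℝ) (r : ℝ), 0 < r ∧ r < ρ / (4000 * ((Multiset.card s : ℝ) + 1)) ∧ wkBall c r ⊆ D ∧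
      (2 * ρ) ^ 2 ≤ C0467.sqDist c z0 ∧ ∀ y, y ∉ wkBall c r → g y = 0) →
    Tendsto (fun n => gaussM t (δ n) (F n) (C0467.lap2 φ ::ₘ s)) atTop (𝓝 0)

/-- (A3) at the discrete level: a nonnegative bump of comparable depth near the boundary, fixed interior spectators -/
def GaussBD (t : ℝ) (D : Set (ℝ × ℝ)) (δ : ℕ → ℝ) (F : ℕ → Finset (ℤ × ℤ)) : Prop :=
  ∃ θ : ℝ, 0 < θ ∧ θ ≤ 1 / 4 ∧ ∀ s : Multiset (ℝ × ℝ → ℝ), (∀ k ∈ s, WkTest D k) → ∀ A : ℝ, 0 < A → ∀ η : ℝ, 0 < η →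
    ∃ a : ℝ, 0 < a ∧ ∀ z ∈ D, limDep D z < a → ∀ g : ℝ × ℝ → ℝ, Continuous g → (∀ y, 0 ≤ g y) → (∀ y, g y ≤ A / limDep D z ^ 2) →
      (∀ y, y ∉ wkBall z (θ * limDep D z) → g y = 0) → ∀ᶠ n in atTop, |gaussM t (δ n) (F n) (g ::ₘ s)| ≤ η

/-- (A4) along `𝒰`: the neutral pair `(-Δ η_r, r⁻² β_r)` decouples from spectators which vanish near it, with the plane constant `v` of `(δ, 𝒰)` -/
def GaussDec (t v : ℝ) (D : Set (ℝ × ℝ)) (δ : ℕ → ℝ) (F : ℕ → Finset (ℤ × ℤ)) (𝒰 : Ultrafilter ℕ) : Prop :=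
  ∀ (K0 : Set (ℝ × ℝ)) (R0 : ℝ), IsCompact K0 → 0 < R0 → (∀ y0 ∈ K0, wkBall y0 R0 ⊆ D) →
    ∀ s : Multiset (ℝ × ℝ → ℝ), (∀ k ∈ s, WkTest D k) → (∀ k ∈ s, ∀ y0 ∈ K0, ∀ y ∈ wkBall y0 R0, k y = 0) →
    ∀ η β : ℝ × ℝ → ℝ, ContDiff ℝ ∞ η → HasCompactSupport η → ContDiff ℝ ∞ β → HasCompactSupport β → ∫ y, β y = 0 →
    ∀ ε : ℝ, 0 < ε → ∃ r0 : ℝ, 0 < r0 ∧ ∀ y0 ∈ K0, ∀ r : ℝ, 0 < r → r < r0 → ∀ᶠ n in (𝒰 : Filter ℕ),
      |gaussM t (δ n) (F n) ((fun y => -C0467.lap2 (limSc η y0 r) y) ::ₘ (fun y => (r ^ 2)⁻¹ * limSc β y0 r y) ::ₘ s)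
        - v * (∫ y, η y * β y) * gaussM t (δ n) (F n) s| ≤ ε

/-- the flat limit in moment form ALONG AN ULTRAFILTER OF MESHES: one constant for all Jordan domains and all approximations of mesh `δ` -/
def AtFlatU (t v : ℝ) (δ : ℕ → ℝ) (𝒰 : Ultrafilter ℕ) : Prop :=
  ∀ (D : Set (ℝ × ℝ)), GaussDom D → ∀ F : ℕ → Finset (ℤ × ℤ), IsAdmissibleApprox D δ F →
  ∀ φ : ℝ × ℝ → ℝ, ContDiff ℝ ((⊤ : ℕ∞) : WithTop ℕ∞) φ → HasCompactSupport φ → tsupport φ ⊆ D →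
  ∀ u : ℝ × ℝ → ℝ, ContDiffOn ℝ 2 u D → ContinuousOn u (closure D) →
    (∀ z ∈ frontier D, u z = 0) → (∀ z ∈ D, -C0468.lap2 u z = φ z) →
  ∀ k : ℕ, Tendsto (fun n => atExpect t (δ n) (F n) φ (fun s => s ^ k)) (𝒰 : Filter ℕ)
    (𝓝 (tmmWick (v * ∫ z in D, φ z * u z) k))

end Claimed.Agent.R292
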