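import Claimed.Prelude.Def_0468

/-!
# Row 292 (S0540), Defs/JORDAN : THE LATTICE GEOMETRY OF AN ADMISSIBLE APPROXIMATION      (unit JORDAN, head helper281; prefix `jd_`, defs `jd*`, `Jd*`)

Words in which the unit JORDAN hands the geometry of `IsAdmissibleApprox D δ F` (Def_0468) to the probabilistic units.
Faces are indexed by their bottom-left corner `f : ℤ × ℤ`; the closed face of mesh `δ` is `jdSq δ f = [δ f₁, δ (f₁+1)] × [δ f₂, δ (f₂+1)]`.
* `jdAdj`    two faces share an edge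
* `JdPoly F` the finite face set `F` is a SIMPLY CONNECTED POLYOMINO: nonempty, edge-connected, its complement is edge-connected, no pinch at a corner
* `jdDep D z` depth of a point (sup metric of `ℝ × ℝ`), the same as `limDep` of R291
-/

set_option autoImplicit false

namespace Claimed.Agent.R292

open Claims Claims.C0468

/-- the closed face of mesh `δ` with bottom-left corner `δ f` -/
def jdSq (δ : ℝ) (f : ℤ × ℤ) : Set (ℝ × ℝ) :=
  Set.Icc (δ * f.1) (δ * (f.1 + 1)) ×ˢ Set.Icc (δ * f.2) (δ * (f.2 + 1))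

theorem jdSq_eqns_cite (δ : ℝ) (f : ℤ × ℤ) :
    jdSq δ f = Set.Icc (δ * f.1) (δ * (f.1 + 1)) ×ˢ Set.Icc (δ * f.2) (δ * (f.2 + 1)) := by rw [jdSq]

/-- two faces share an edge -/
def jdAdj (f g : ℤ × ℤ) : Prop :=
  g - f = (1, 0) ∨ g - f = (0, 1) ∨ g - f = (-1, 0) ∨ g - f = (0, -1)

theorem jdAdj_eqns_cite (f g : ℤ × ℤ) :
    jdAdj f g = (g - f = (1, 0) ∨ g - f = (0, 1) ∨ g - f = (-1, 0) ∨ g - f = (0, -1)) := by rw [jdAdj]

/-- a simply connected polyomino -/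
structure JdPoly (F : Finset (ℤ × ℤ)) : Prop where
  nonempty : F.Nonempty
  /-- `F` is edge-connected -/
  conn : ∀ f g : ℤ × ℤ, f ∈ F → g ∈ F → Relation.ReflTransGen (fun a b => jdAdj a b ∧ b ∈ F) f g
  /-- the complement of `F` is edge-connected -/
  coconn : ∀ f g : ℤ × ℤ, f ∉ F → g ∉ F → Relation.ReflTransGen (fun a b => jdAdj a b ∧ b ∉ F) f g
  /-- no corner `v` at which exactly two diagonally opposite faces belong to `F` -/
  nopinch : ∀ v : ℤ × ℤ,
    ¬ (v ∈ F ∧ (v.1 - 1, v.2 - 1) ∈ F ∧ (v.1 - 1, v.2) ∉ F ∧ (v.1, v.2 - 1) ∉ F) ∧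
    ¬ (v ∉ F ∧ (v.1 - 1, v.2 - 1) ∉ F ∧ (v.1 - 1, v.2) ∈ F ∧ (v.1, v.2 - 1) ∈ F)

/-- depth of a point (sup metric of `ℝ × ℝ`) -/
noncomputable def jdDep (D : Set (ℝ × ℝ)) (z : ℝ × ℝ) : ℝ := Metric.infDist z (frontier D)

theorem jdDep_eqns_cite (D : Set (ℝ × ℝ)) (z : ℝ × ℝ) : jdDep D z = Metric.infDist z (frontier D) := by rw [jdDep]

end Claimed.Agent.R292
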