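import Claimed.Agent.R292.Defs.RSW
import Claimed.Agent.R292.Defs.GAUSS
import Claimed.Agent.R292.Defs.JORDAN

/-!
# Row 292 (S0540), Defs/Arch : THE WALL CLUSTER AND ITS SEALS      (unit JORDAN, head helper281; names `RswLink RswWall RswSeal RswStepW RswSepW rswCl rswFlipW`)

Vocabulary of the boundary decay (A3) `gauss_bd`, on the configurations `ω = (S, D, O)` of Defs/RSW (122).
* `RswLink ω a b`     `a`, `b` are the two ends of a good plus edge (an edge of `O` with two plus ends)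
* `RswWall F ω v`     `v` is in the plus `W` cluster of the wall: joined to a corner on the polygon by good plus edges.      Reads `(S, O)` only.      The height vanishes there.
* `RswSeal F ω e`     `e` is a good plus edge of the wall cluster
* `RswStepW F ω f g`  one dual step inside `F` across an edge which is not a seal
* `RswSepW F ω A B`   the seals (with the wall) separate the faces `A` from the faces `B` inside `F`        = TEX[prop:circuits] (2): no path avoiding the wall and the attached matching circuits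
* `rswCl F ω A`       the faces reached from `A`
* `rswFlipW F A ω`    THE FLIP: the face spins of `rswCl F ω A` are reversed; `(S, O)` untouched
-/

set_option autoImplicit false

namespace Claimed.Agent.R292

open Claims Claims.C0468

/-- `a`, `b` are the two ends of a good plus edge -/
def RswLink (ω : RswCfg) (a b : ℤ × ℤ) : Prop :=
  ∃ e : (ℤ × ℤ) × Bool, RswGood true ω e ∧ ((a = e.1 ∧ b = rswEnd e) ∨ (b = e.1 ∧ a = rswEnd e))

theorem RswLink_eqns_cite (ω : RswCfg) (a b : ℤ × ℤ) : RswLink ω a b =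
    ∃ e : (ℤ × ℤ) × Bool, RswGood true ω e ∧ ((a = e.1 ∧ b = rswEnd e) ∨ (b = e.1 ∧ a = rswEnd e)) := by rw [RswLink]

/-- `v` belongs to the plus `W` cluster of the wall -/
def RswWall (F : Finset (ℤ × ℤ)) (ω : RswCfg) (v : ℤ × ℤ) : Prop :=
  ∃ w ∈ cornersOf F, OnPolygon F w ∧ Relation.ReflTransGen (RswLink ω) w v

theorem RswWall_eqns_cite (F : Finset (ℤ × ℤ)) (ω : RswCfg) (v : ℤ × ℤ) : RswWall F ω v =
    ∃ w ∈ cornersOf F, OnPolygon F w ∧ Relation.ReflTransGen (RswLink ω) w v := by rw [RswWall]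

/-- a good plus edge of the wall cluster -/
def RswSeal (F : Finset (ℤ × ℤ)) (ω : RswCfg) (e : (ℤ × ℤ) × Bool) : Prop := RswGood true ω e ∧ RswWall F ω e.1

theorem RswSeal_eqns_cite (F : Finset (ℤ × ℤ)) (ω : RswCfg) (e : (ℤ × ℤ) × Bool) :
    RswSeal F ω e = (RswGood true ω e ∧ RswWall F ω e.1) := by rw [RswSeal]

/-- one dual step inside `F` across an edge which is not a seal -/
def RswStepW (F : Finset (ℤ × ℤ)) (ω : RswCfg) (f g : ℤ × ℤ) : Prop :=
  f ∈ F ∧ g ∈ F ∧ ∃ e : (ℤ × ℤ) × Bool, ((f = e.1 ∧ g = rswCo e) ∨ (g = e.1 ∧ f = rswCo e)) ∧ ¬ RswSeal F ω e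

theorem RswStepW_eqns_cite (F : Finset (ℤ × ℤ)) (ω : RswCfg) (f g : ℤ × ℤ) : RswStepW F ω f g =
    (f ∈ F ∧ g ∈ F ∧ ∃ e : (ℤ × ℤ) × Bool, ((f = e.1 ∧ g = rswCo e) ∨ (g = e.1 ∧ f = rswCo e)) ∧ ¬ RswSeal F ω e) := by
  rw [RswStepW]

/-- the seals separate `A` from `B` inside `F` -/
def RswSepW (F : Finset (ℤ × ℤ)) (ω : RswCfg) (A B : Finset (ℤ × ℤ)) : Prop :=
  ∀ f ∈ A, ∀ g ∈ B, ¬ Relation.ReflTransGen (RswStepW F ω) f g

theorem RswSepW_eqns_cite (F : Finset (ℤ × ℤ)) (ω : RswCfg) (A B : Finset (ℤ × ℤ)) : RswSepW F ω A B =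
    ∀ f ∈ A, ∀ g ∈ B, ¬ Relation.ReflTransGen (RswStepW F ω) f g := by rw [RswSepW]

/-- the faces of `F` reached from `A` -/
noncomputable def rswCl (F : Finset (ℤ × ℤ)) (ω : RswCfg) (A : Finset (ℤ × ℤ)) : Finset (ℤ × ℤ) :=
  open Classical in F.filter (fun g => ∃ f ∈ A, Relation.ReflTransGen (RswStepW F ω) f g)

theorem rswCl_eqns_cite (F : Finset (ℤ × ℤ)) (ω : RswCfg) (A : Finset (ℤ × ℤ)) : rswCl F ω A =
    open Classical in F.filter (fun g => ∃ f ∈ A, Relation.ReflTransGen (RswStepW F ω) f g) := by rw [rswCl]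

/-- THE FLIP -/
noncomputable def rswFlipW (F A : Finset (ℤ × ℤ)) (ω : RswCfg) : RswCfg :=
  ⟨ω.S, symmDiff ω.D (rswCl F ω A), ω.O⟩

theorem rswFlipW_eqns_cite (F A : Finset (ℤ × ℤ)) (ω : RswCfg) :
    rswFlipW F A ω = ⟨ω.S, symmDiff ω.D (rswCl F ω A), ω.O⟩ := by rw [rswFlipW]

/-- the corner `v` has its four faces in `B` -/
def RswIn (B : Finset (ℤ × ℤ)) (v : ℤ × ℤ) : Prop :=
  v ∈ B ∧ (v.1 - 1, v.2) ∈ B ∧ (v.1, v.2 - 1) ∈ B ∧ (v.1 - 1, v.2 - 1) ∈ B

theorem RswIn_eqns_cite (B : Finset (ℤ × ℤ)) (v : ℤ × ℤ) :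
    RswIn B v = (v ∈ B ∧ (v.1 - 1, v.2) ∈ B ∧ (v.1, v.2 - 1) ∈ B ∧ (v.1 - 1, v.2 - 1) ∈ B) := by rw [RswIn]

end Claimed.Agent.R292
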