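import Claimed.Agent.R292.Defs.GAUSS
import Claimed.Agent.R292.Defs.RSW

/-!
# Row 292 (S0540), Defs/GaussArch : THE BOUNDARY ARCH IN BLOCKING FORM      (owner helper181, head of GAUSS; prefix `gauss`/`Gauss`)

TEX[prop:boundary-decay], first paragraph of the proof ("matching circuits attached to this wall"), typed for the consumer `gauss_bd` (62) as `BdyArch` of R291/Defs/Bdy was.
Vocabulary of Defs/RSW (`RswCfg = (S, D, O)`, `rswH`, `rswP`).

DESIGN.  An edge BLOCKS when it is an open `W` edge whose two endpoints have HEIGHT ZERO (`GaussGood0`).  An arch of open `W` edges of the colour of the wall which is ATTACHED to the wall is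
made of such edges (the height is constant along a primal edge with equal spins, and is `0` on the polygon).  With this definition the cluster flip needs NO topology:
a corner common to a face of the cluster and to a face of `F` off the cluster is an endpoint of a blocking edge or lies on the polygon, so its height is `0`.
-/

set_option autoImplicit false

namespace Claimed.Agent.R292

open Filter Topology Set
open Claims Claims.C0468 Claimed.Agent.R291

/-- a blocking edge: open `W` edge, height zero at both endpoints -/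
def GaussGood0 (F : Finset (ℤ × ℤ)) (ω : RswCfg) (e : (ℤ × ℤ) × Bool) : Prop :=
  e ∈ ω.O ∧ rswH F ω e.1 = 0 ∧ rswH F ω (rswEnd e) = 0

/-- one step of a dual path inside `F` across an edge which does not block -/
def GaussStep0 (F : Finset (ℤ × ℤ)) (ω : RswCfg) (f g : ℤ × ℤ) : Prop :=
  f ∈ F ∧ g ∈ F ∧ ∃ e, ((f = e.1 ∧ g = rswCo e) ∨ (g = e.1 ∧ f = rswCo e)) ∧ ¬ GaussGood0 F ω e

/-- the blocking edges separate the faces `A` from the faces `B` inside `F` -/
def GaussSep0 (F : Finset (ℤ × ℤ)) (ω : RswCfg) (A B : Finset (ℤ × ℤ)) : Prop :=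
  ∀ f ∈ A, ∀ g ∈ B, ¬ Relation.ReflTransGen (GaussStep0 F ω) f g

open Classical in
/-- the faces of `F` whose lower left corner is at Euclidean distance `< r` from `p` -/
noncomputable def gaussIn (δ : ℝ) (F : Finset (ℤ × ℤ)) (p : ℝ × ℝ) (r : ℝ) : Finset (ℤ × ℤ) :=
  F.filter fun f => C0467.sqDist (δ * f.1, δ * f.2) p < r ^ 2

open Classical in
/-- the faces of `F` whose lower left corner is at Euclidean distance `≥ R` from `p` -/
noncomputable def gaussOut (δ : ℝ) (F : Finset (ℤ × ℤ)) (p : ℝ × ℝ) (R : ℝ) : Finset (ℤ × ℤ) :=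
  F.filter fun f => R ^ 2 ≤ C0467.sqDist (δ * f.1, δ * f.2) p

/-- **[ARCH]** near every boundary point, with probability close to one, blocking edges separate a small neighbourhood from the bulk -/
def GaussArch (t : ℝ) (D : Set (ℝ × ℝ)) (δ : ℕ → ℝ) (F : ℕ → Finset (ℤ × ℤ)) : Prop :=
  ∀ p ∈ frontier D, ∀ R : ℝ, 0 < R → ∀ ε : ℝ, 0 < ε → ∃ r : ℝ, 0 < r ∧ r < R ∧ ∀ᶠ n in atTop,
    rswP t (F n) true (fun ω => ¬ GaussSep0 (F n) ω (gaussIn (δ n) (F n) p r) (gaussOut (δ n) (F n) p R)) ≤ ε

/-- **[FLIP]** the interface between the cluster flip (162) and the assembly of `gauss_bd` (172): `X` is odd and reads the heights at the corners of the faces `A` only,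
`Y` reads the heights at the corners of the faces `B` only; on the separation event their product has mean zero.      OWED: `At92hExt F → GaussFlip t F` (`At92hExt` of R292/Height). -/
def GaussFlip (t : ℝ) (F : Finset (ℤ × ℤ)) : Prop :=
  ∀ (A B : Finset (ℤ × ℤ)) (X Y : (ℤ × ℤ → ℝ) → ℝ), A ⊆ F → B ⊆ F →
    (∀ h h' : ℤ × ℤ → ℝ, (∀ v ∈ cornersOf A, h' v = -h v) → X h' = -X h) →
    (∀ h h' : ℤ × ℤ → ℝ, (∀ v ∈ cornersOf B, h' v = h v) → Y h' = Y h) →
    rswE t F true (fun ω => open Classical in if GaussSep0 F ω A B then X (rswH F ω) * Y (rswH F ω) else 0) = 0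

/-- **[DEPTH]** fourth moment of a bump of comparable depth, uniformly up to the boundary (blueprint: `bdy_sm_depth` of R291/Bdy/Mom, from `exit_rsw_mom_smear`) -/
def GaussDepth (t : ℝ) (D : Set (ℝ × ℝ)) (δ : ℕ → ℝ) (F : ℕ → Finset (ℤ × ℤ)) : Prop :=
  ∃ θ C : ℝ, 0 < θ ∧ θ ≤ 1 / 4 ∧ 0 < C ∧ ∀ z ∈ D, ∀ (A : ℝ) (g : ℝ × ℝ → ℝ), 0 < A → Continuous g → (∀ y, 0 ≤ g y) → (∀ y, g y ≤ A / limDep D z ^ 2) →
    (∀ y, y ∉ wkBall z (θ * limDep D z) → g y = 0) → ∀ᶠ n in atTop, gaussM t (δ n) (F n) (Multiset.replicate 4 g) ≤ C * A ^ 4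

end Claimed.Agent.R292
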