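import Claimed.Agent.R292.Defs.MODEL
import Claimed.Agent.R292.Rsw.Cut91
import Claimed.Agent.R292.Rsw.Plane171

/-!
# Row 292 (S0540), Defs/GaussMatch : THE MATCHING (common-cut coupling WITHOUT coupling), scale invariant      (owner helper181, head of GAUSS; names `GaussRate`, `GaussFkg`, `GaussArm`, `GaussMixR`)

TEX[prop:comparison] second paragraph ("monotone circuit couplings") as used in TEX[lem:neutral-pair-mixing].      Blueprint: (M) `dis_match` / `dmt_main` of R291/Dis/Base (exploration induction, envelope principle).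
`GaussRate t` : in a Jordan ambient `F`, under ANY nonnegative increasing weight `u` which reads the configuration off the strict inside of `B` only, an observable `X` of the FULL configuration `(S, D, O)` inside `A ⊆ B`,
`|X| ≤ 1`, has the mean it has in the MINUS flat law of `B`, up to twice the probability, in that minus flat law, that no PLUS cut separates `A` from the layer of `B`.   NO factor `card A`.
Consumers: `u = 1` (flat law of `F`; plane law along the boxes), `u = rskInd U true` (flat PLUS law of any sealed `U ⊇ B`, through `rsk_cut`).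
`GaussMixR t` : the mixing statement in the vocabulary of RSW (two ambient domains).
-/

set_option autoImplicit false

namespace Claimed.Agent.R292

open Claims Claims.C0468

/-- the statement of `exit_mdl_cmp` (S0, FKG under pins), colour plus, as a hypothesis -/
def GaussFkg (t : ℝ) : Prop :=
  ∀ (F : Finset (ℤ × ℤ)), RswJordan F → ∀ (b : Bool) (K : MdlPin), K.Ok → ∀ X Y : RswCfg → ℝ, MdlInc true X → MdlInc true Y →
    mdlSumK t F b K X * mdlSumK t F b K Y ≤ mdlSumK t F b K (fun _ => 1) * mdlSumK t F b K fun ω => X ω * Y ω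

/-- **[RATE]** -/
def GaussRate (t : ℝ) : Prop :=
  ∀ (F B A : Finset (ℤ × ℤ)) (b : Bool) (u X : RswCfg → ℝ), RswJordan F → B ⊆ F → RspDeep B F → A ⊆ B →
    (∀ ω, 0 ≤ u ω) → MdlInc true u → RskOutside B u → RskInside A X → (∀ ω, |X ω| ≤ 1) →
    |rswSum t F b (fun ω => u ω * X ω) - rswE t B false X * rswSum t F b u|
      ≤ 2 * rswP t B false (fun ω => ¬ RswSep B true ω A (rswLayer B)) * rswSum t F b u

/-- the bulk arm bound (conclusion of `arm101_arm`, trivial exterior data), as a hypothesis -/
def GaussArm (t : ℝ) : Prop :=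
  ∃ C α : ℝ, 0 < C ∧ 0 < α ∧ ∀ (F : Finset (ℤ × ℤ)) (z : ℤ × ℤ) (b a : Bool) (r R : ℕ), 1 ≤ R → RswJordan F → rswBox z R ⊆ F →
    rswP t F b (fun ω => ¬ RswSep F a ω (rswBox z r) (F \ rswBox z R)) ≤ C * (((r : ℝ) + 1) / R) ^ α

/-- **[MIX-R]** mixing in the vocabulary of RSW: what is read inside the box of radius `r` is almost independent of what is read off the strict inside of the box of radius `L`,
and almost distributed as in ANY other Jordan ambient domain which contains the box of radius `L` -/
def GaussMixR (t : ℝ) : Prop :=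
  ∃ C κ : ℝ, 0 < C ∧ 0 < κ ∧ ∀ (F F' : Finset (ℤ × ℤ)) (z : ℤ × ℤ) (b b' : Bool) (r L : ℕ), RswJordan F → RswJordan F' → 1 ≤ r → C * r ≤ L →
    rswBox z L ⊆ F → rswBox z L ⊆ F' → ∀ G X : RswCfg → ℝ, RskOutside (rswBox z L) G → (∀ ω, |G ω| ≤ 1) → RskInside (rswBox z r) X → (∀ ω, |X ω| ≤ 1) →
      |rswE t F b (fun ω => G ω * X ω) - rswE t F b G * rswE t F' b' X| ≤ C * ((r : ℝ) / L) ^ κ

theorem gauss_match_eqns_cite : True := by
  have := @GaussFkg.eq_1; have := @GaussRate.eq_1; have := @GaussArm.eq_1; have := @GaussMixR.eq_1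
  trivial

end Claimed.Agent.R292
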