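import Mathlib
import Claimed.Prelude.Def_0468

/-!
# Row 292 (S0540), Defs/SPEC : VOCABULARY OF UNIT SPEC (AT paper Sec. 4, reflection positivity and the plane covariance)      (owner helper79; prefix `asp`)

MODEL FREE, as unit PLN of row 291.  The only datum is the variogram `a : AspG → ℝ`, `a u = E (K u - K 0)^2`, of a stationary height-increment law on a
square grid `ℤ²` of unit mesh.  It can be applied BOTH to the corner grid of the paper (its own unit coordinates) AND to the primal lattice alone in the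
frozen coordinates (primal rows and primal diagonals are site rows of the corner grid), because only site-row reflections are asked for.

* `aspGam a b b'` = covariance form `-(1/2) ∑∑ b_u b'_v a (u - v)` on finitely supported arrays (meaningful on total mass zero)
* `aspW δ f` = array of cell weights `∫_{cell δ u} f`, cell = square of side `δ` centred at `δ u` (exactly neutral if `∫ f = 0`; commutes with the four
  row reflections and the translations).  [The paper takes the bilinear nodal hat; any D4-symmetric partition of unity does.]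
* frames `i : Fin 4` = directions `0, π/4, π/2, 3π/4`: `aspNor i u` normal coordinate of a site (rows = level sets), `aspRow i j` reflection in the site row
  `aspNor i = j`, `aspNorE i z` Euclidean normal coordinate, `aspStep i` Euclidean row spacing (`1` or `1/√2`)
* `AspIn a` = the facts of the model consumed by Sec. 4
* `AspGreen G δ β` = TEX[prop:plane-green] along a sequence of meshes;  `AspPC G δ v` = its Laplacian form (`v = 2 π β`)
* `AspRN G` = TEX[cor:reflection-null]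
-/

set_option autoImplicit false

namespace Claimed.Agent.R292

open Claims Claims.C0468 MeasureTheory Filter Topology
open scoped ENNReal

/-- sites of the square grid -/
abbrev AspG : Type := ℤ × ℤ

/-- total mass of an array -/
noncomputable def aspTot (b : AspG →₀ ℝ) : ℝ := b.sum fun _ x => x

/-- covariance form of a variogram -/
noncomputable def aspGam (a : AspG → ℝ) (b b' : AspG →₀ ℝ) : ℝ :=
  -(1 / 2) * b.sum fun u x => b'.sum fun v y => x * y * a (u - v)

/-- transport of an array by a map of the grid -/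
noncomputable def aspMap (σ : AspG → AspG) (b : AspG →₀ ℝ) : AspG →₀ ℝ := b.mapDomain σ

/-- translation of an array -/
noncomputable def aspTr (w : AspG) (b : AspG →₀ ℝ) : AspG →₀ ℝ := b.mapDomain (· + w)

/-- the cell of a site: the square of side `δ` centred at `δ u` -/
def aspCell (δ : ℝ) (u : AspG) : Set (ℝ × ℝ) :=
  Set.Ioc (δ * ((u.1 : ℝ) - 1 / 2)) (δ * ((u.1 : ℝ) + 1 / 2)) ×ˢ Set.Ioc (δ * ((u.2 : ℝ) - 1 / 2)) (δ * ((u.2 : ℝ) + 1 / 2))

/-- cell weight of a test function -/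
noncomputable def aspWt (δ : ℝ) (f : ℝ × ℝ → ℝ) (u : AspG) : ℝ := ∫ z in aspCell δ u, f z

open Classical in
/-- the array of cell weights of a test function (zero if the support is infinite) -/
noncomputable def aspW (δ : ℝ) (f : ℝ × ℝ → ℝ) : AspG →₀ ℝ :=
  if h : (Function.support (aspWt δ f)).Finite then Finsupp.ofSupportFinite (aspWt δ f) h else 0

/-- normal coordinate of a site in the frame `i` (directions `0, π/4, π/2, 3π/4` of the tangent) -/
def aspNor (i : Fin 4) (u : AspG) : ℤ :=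
  match i with
  | 0 => u.2
  | 1 => u.2 - u.1
  | 2 => -u.1
  | 3 => -u.1 - u.2

/-- reflection of the grid in the site row `aspNor i = j` -/
def aspRow (i : Fin 4) (j : ℤ) (u : AspG) : AspG :=
  match i with
  | 0 => (u.1, 2 * j - u.2)
  | 1 => (u.2 - j, u.1 + j)
  | 2 => (-2 * j - u.1, u.2)
  | 3 => (-j - u.2, -j - u.1)

/-- Euclidean normal coordinate in the frame `i` -/
noncomputable def aspNorE (i : Fin 4) (z : ℝ × ℝ) : ℝ :=
  match i with
  | 0 => z.2
  | 1 => (z.2 - z.1) / Real.sqrt 2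
  | 2 => -z.1
  | 3 => (-z.1 - z.2) / Real.sqrt 2

/-- Euclidean spacing of the site rows of the frame `i` at unit mesh -/
noncomputable def aspStep (i : Fin 4) : ℝ :=
  match i with
  | 0 => 1
  | 1 => 1 / Real.sqrt 2
  | 2 => 1
  | 3 => 1 / Real.sqrt 2

/-- smooth compactly supported test functions -/
def AspTest (f : ℝ × ℝ → ℝ) : Prop := ContDiff ℝ ((⊤ : ℕ∞) : WithTop ℕ∞) f ∧ HasCompactSupport f

/-- the logarithmic energy `∬ f(x) log (1 / |x - y|) g(y)` (Euclidean distance) -/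
noncomputable def aspL (f g : ℝ × ℝ → ℝ) : ℝ :=
  ∫ x, ∫ y, f x * g y * (-(1 / 2) * Real.log ((x.1 - y.1) ^ 2 + (x.2 - y.2) ^ 2))

/-- **the facts of the model consumed by Sec. 4** -/
structure AspIn (a : AspG → ℝ) : Prop where
  /-- `a 0 = 0` -/
  zero : a 0 = 0
  /-- variances are nonnegative -/
  psd : ∀ b : AspG →₀ ℝ, aspTot b = 0 → 0 ≤ aspGam a b b
  /-- invariance under the reflection in the vertical axis -/
  symX : ∀ u : AspG, a (-u.1, u.2) = a u
  /-- invariance under the reflection in the diagonal -/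
  symS : ∀ u : AspG, a (u.2, u.1) = a u
  /-- TEX[lem:positive-transfer], axial site row, linear observables of the upper half plane -/
  rp0 : ∀ b : AspG →₀ ℝ, aspTot b = 0 → (∀ u ∈ b.support, 0 ≤ aspNor 0 u) → 0 ≤ aspGam a (aspMap (aspRow 0 0) b) b
  /-- TEX[lem:positive-transfer], diagonal site row -/
  rp1 : ∀ b : AspG →₀ ℝ, aspTot b = 0 → (∀ u ∈ b.support, 0 ≤ aspNor 1 u) → 0 ≤ aspGam a (aspMap (aspRow 1 0) b) b
  /-- TEX[eq:plane-neutral-moments], `m = 1`, scale invariant form -/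
  sm : ∃ K : ℝ, ∀ N : ℕ, 1 ≤ N → ∀ b : AspG →₀ ℝ, aspTot b = 0 → (∀ u ∈ b.support, |u.1| ≤ (N : ℤ) ∧ |u.2| ≤ (N : ℤ)) →
    (∀ u, |b u| ≤ 1 / (N : ℝ) ^ 2) → aspGam a b b ≤ K
  /-- last part of the proof of TEX[prop:plane-green]: a uniform lower variance bound (circuits + fair colours) -/
  nd : ∃ f : ℝ × ℝ → ℝ, AspTest f ∧ ∫ z, f z = 0 ∧ ∃ c : ℝ, 0 < c ∧ ∀ᶠ δ in 𝓝[>] (0 : ℝ), c ≤ aspGam a (aspW δ f) (aspW δ f)

/-- **TEX[prop:plane-green]** along the meshes `δ n` -/
def AspGreen (G : (AspG →₀ ℝ) → (AspG →₀ ℝ) → ℝ) (δ : ℕ → ℝ) (β : ℝ) : Prop :=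
  ∀ f g : ℝ × ℝ → ℝ, AspTest f → AspTest g → ∫ z, f z = 0 → ∫ z, g z = 0 →
    Tendsto (fun n => G (aspW (δ n) f) (aspW (δ n) g)) atTop (𝓝 (β * aspL f g))

/-- Laplacian form of TEX[prop:plane-green] (`v = 2 π β`) -/
def AspPC (G : (AspG →₀ ℝ) → (AspG →₀ ℝ) → ℝ) (δ : ℕ → ℝ) (v : ℝ) : Prop :=
  ∀ η g : ℝ × ℝ → ℝ, AspTest η → AspTest g → ∫ z, g z = 0 →
    Tendsto (fun n => G (aspW (δ n) (lap2 η)) (aspW (δ n) g)) atTop (𝓝 (-v * ∫ z, η z * g z))

/-- **TEX[cor:reflection-null]**: fixed test at positive distance on one side of the limit line of the frame `i`, site rows `aspNor i = j δ` converging to it -/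
def AspRN (G : (AspG →₀ ℝ) → (AspG →₀ ℝ) → ℝ) : Prop :=
  ∀ (i : Fin 4) (φ : ℝ × ℝ → ℝ) (y0 m : ℝ) (j : ℝ → ℤ), AspTest φ → 0 < m →
    ((∀ z ∈ tsupport φ, y0 + m ≤ aspNorE i z) ∨ (∀ z ∈ tsupport φ, aspNorE i z ≤ y0 - m)) →
    Tendsto (fun δ : ℝ => aspStep i * δ * (j δ : ℝ)) (𝓝[>] 0) (𝓝 y0) →
    Tendsto (fun δ : ℝ => G (aspMap (aspRow i (j δ)) (aspW δ (lap2 φ))) (aspW δ (lap2 φ))) (𝓝[>] 0) (𝓝 0)

/-! ## full-limit forms (the coefficient is unique: two-frame cutoff identity) -/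

/-- TEX[prop:plane-green], full limit `δ ↓ 0` -/
def AspGreenF (G : (AspG →₀ ℝ) → (AspG →₀ ℝ) → ℝ) (β : ℝ) : Prop :=
  ∀ f g : ℝ × ℝ → ℝ, AspTest f → AspTest g → ∫ z, f z = 0 → ∫ z, g z = 0 →
    Tendsto (fun δ : ℝ => G (aspW δ f) (aspW δ g)) (𝓝[>] 0) (𝓝 (β * aspL f g))

/-- Laplacian form, full limit `δ ↓ 0` -/
def AspPCF (G : (AspG →₀ ℝ) → (AspG →₀ ℝ) → ℝ) (v : ℝ) : Prop :=
  ∀ η g : ℝ × ℝ → ℝ, AspTest η → AspTest g → ∫ z, g z = 0 →
    Tendsto (fun δ : ℝ => G (aspW δ (lap2 η)) (aspW δ g)) (𝓝[>] 0) (𝓝 (-v * ∫ z, η z * g z))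

/-! ## vocabulary of the four boxes -/

/-- `p · u` -/
def aspPh (p : ℝ × ℝ) (u : AspG) : ℝ := p.1 * (u.1 : ℝ) + p.2 * (u.2 : ℝ)

/-- lattice Fourier transform of an array at the frequency `p` -/
noncomputable def aspHat (b : AspG →₀ ℝ) (p : ℝ × ℝ) : ℂ :=
  b.sum fun u x => (x : ℂ) * Complex.exp (Complex.I * (aspPh p u : ℂ))

/-- Euclidean square norm -/
def aspSq (p : ℝ × ℝ) : ℝ := p.1 ^ 2 + p.2 ^ 2

/-- the lattice symbol `|e^{i p₁} - 1|² + |e^{i p₂} - 1|²` -/
noncomputable def aspDD (p : ℝ × ℝ) : ℝ := 4 - 2 * Real.cos p.1 - 2 * Real.cos p.2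

/-- the box chart of the reciprocal torus -/
def aspBox : Set (ℝ × ℝ) := {p | p.1 ∈ Set.Ioc (-Real.pi) Real.pi ∧ p.2 ∈ Set.Ioc (-Real.pi) Real.pi}

/-- frequency coordinates `(k, l)` (tangential, normal) in the frame `i` -/
noncomputable def aspFr (i : Fin 4) (p : ℝ × ℝ) : ℝ × ℝ :=
  match i with
  | 0 => (p.1, p.2)
  | 1 => ((p.1 + p.2) / Real.sqrt 2, (p.2 - p.1) / Real.sqrt 2)
  | 2 => (p.2, -p.1)
  | 3 => ((p.2 - p.1) / Real.sqrt 2, (-p.1 - p.2) / Real.sqrt 2)

/-- tangential period `ℓ_i` of the rectangular sublattice of the frame `i` -/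
noncomputable def aspTanP (i : Fin 4) : ℝ :=
  match i with
  | 0 => 1
  | 1 => Real.sqrt 2
  | 2 => 1
  | 3 => Real.sqrt 2

/-- positive normal step `d_i` (two row spacings) -/
noncomputable def aspNorP (i : Fin 4) : ℝ :=
  match i with
  | 0 => 2
  | 1 => Real.sqrt 2
  | 2 => 2
  | 3 => Real.sqrt 2

theorem asp_tanP_pos (i : Fin 4) : 0 < aspTanP i := by
  fin_cases i <;> simp [aspTanP]

theorem asp_norP_pos (i : Fin 4) : 0 < aspNorP i := by
  fin_cases i <;> simp [aspNorP]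

/-- reduction modulo `2 π / q` to the centred period `(-π/q, π/q]` -/
noncomputable def aspRed (q : ℝ) (x : ℝ) : ℝ :=
  if h : 0 < 2 * Real.pi / q then toIocMod h (-(Real.pi / q)) x else x

/-- the reduced frame coordinates = the chart of the reciprocal rectangle of the sublattice `ℓ_i ℤ u + d_i ℤ v` -/
noncomputable def aspFrR (i : Fin 4) (p : ℝ × ℝ) : ℝ × ℝ :=
  (aspRed (aspTanP i) (aspFr i p).1, aspRed (aspNorP i) (aspFr i p).2)

/-- the standard Cauchy law -/
noncomputable def aspCau : Measure ℝ :=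
  volume.withDensity fun t => ENNReal.ofReal (1 / (Real.pi * (1 + t ^ 2)))

/-- inverse Cayley rectification of the normal frequency: `ℓ y = (2 / d) arctan (d y / 2)` -/
noncomputable def aspEll (i : Fin 4) (y : ℝ) : ℝ := 2 / aspNorP i * Real.arctan (aspNorP i / 2 * y)

/-- **TEX[lem:increment-spectral]** (B1): the punctured spectral measure, in the box chart -/
structure AspSpec (a : AspG → ℝ) (Cf : Measure (ℝ × ℝ)) (K : ℝ) : Prop where
  /-- carried by the box -/
  box : Cf aspBoxᶜ = 0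
  /-- no mass at the origin -/
  zero : Cf {0} = 0
  /-- squared transforms of zero-total arrays are integrable -/
  int : ∀ b : AspG →₀ ℝ, aspTot b = 0 → Integrable (fun p => ‖aspHat b p‖ ^ 2) Cf
  /-- (4.2), no tilt term, with a translation -/
  rep : ∀ (b : AspG →₀ ℝ) (w : AspG), aspTot b = 0 →
    ((aspGam a b (aspTr w b) : ℝ) : ℂ) = ∫ p, Complex.exp (Complex.I * (aspPh p w : ℂ)) * ((‖aspHat b p‖ ^ 2 : ℝ) : ℂ) ∂Cf
  /-- invariance under the rotation by `π / 2` near the origin -/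
  rot : ∀ G : ℝ × ℝ → ℝ≥0∞, Measurable G → (∀ p, 1 ≤ aspSq p → G p = 0) →
    ∫⁻ p, G (-p.2, p.1) ∂Cf = ∫⁻ p, G p ∂Cf
  /-- (4.3) annuli -/
  ann : ∀ r : ℝ, 0 < r → r ≤ 1 / 2 → Cf {p | r ^ 2 ≤ aspSq p ∧ aspSq p ≤ 4 * r ^ 2} ≤ ENNReal.ofReal K
  /-- the symbol times `Cf` is finite -/
  far : ∫⁻ p, ENNReal.ofReal (aspDD p) ∂Cf ≤ ENNReal.ofReal K

/-- **TEX[lem:cauchy-mixture]** (B2), Cayley form: off the tangential zero line the projected measure is the law of `(k, ℓ (s t))`, `t` standard Cauchy -/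
structure AspMix (i : Fin 4) (Cf ν : Measure (ℝ × ℝ)) : Prop where
  sfin : SFinite ν
  supp : ν {q | ¬ (q.1 ≠ 0 ∧ q.1 ∈ Set.Ioc (-(Real.pi / aspTanP i)) (Real.pi / aspTanP i) ∧ 0 ≤ q.2 ∧ q.2 ≤ 2 / aspNorP i)} = 0
  mix : ∀ G : ℝ × ℝ → ℝ≥0∞, Measurable G →
    ∫⁻ p in {p | (aspFrR i p).1 ≠ 0}, G (aspFrR i p) ∂Cf = ∫⁻ q, ∫⁻ t, G (q.1, aspEll i (q.2 * t)) ∂aspCau ∂ν

/-- (B3) the full spectral scaling limit `|p|² C_δ → c dp` -/
def AspPS (Cf : Measure (ℝ × ℝ)) (c : ℝ) : Prop :=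
  ∀ Ψ : ℝ × ℝ → ℝ, Continuous Ψ → HasCompactSupport Ψ →
    Tendsto (fun δ : ℝ => ∫ p, Ψ (δ⁻¹ • p) * (aspSq p / δ ^ 2) ∂Cf) (𝓝[>] 0) (𝓝 (c * ∫ p, Ψ p))

/-- the equation lemmas of the definitions of this file, cited ONCE here -/
theorem asp_eqns_cite : True := by
  have := @aspTot.eq_1
  have := @aspGam.eq_1
  have := @aspMap.eq_1
  have := @aspTr.eq_1
  have := @aspCell.eq_1
  have := @aspWt.eq_1
  have := @aspW.eq_1
  have := @aspNor.eq_1
  have := @aspRow.eq_1
  have := @aspNorE.eq_1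
  have := @aspStep.eq_1
  have := @AspTest.eq_1
  have := @aspL.eq_1
  have := @AspGreen.eq_1
  have := @AspPC.eq_1
  have := @AspRN.eq_1
  have := @AspGreenF.eq_1
  have := @AspPCF.eq_1
  have := @aspPh.eq_1
  have := @aspHat.eq_1
  have := @aspSq.eq_1
  have := @aspDD.eq_1
  have := @aspBox.eq_1
  have := @aspFr.eq_1
  have := @aspTanP.eq_1
  have := @aspNorP.eq_1
  have := @aspRed.eq_1
  have := @aspFrR.eq_1
  have := @aspCau.eq_1
  have := @aspEll.eq_1
  have := @AspPS.eq_1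
  trivial

end Claimed.Agent.R292
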