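import Claimed.Agent.R292.Defs.SPEC
import Claimed.Agent.R292.Defs.MODEL

/-!
# Row 292 (S0540), Defs/SPECI : VOCABULARY OF THE INSTANCE OF UNIT SPEC (box B6)      (owner helper79; prefix `asi`)

The model-free Sec. 4 (`AspIn a → exit_spec`) is applied to the PRIMAL lattice in the frozen coordinates: `AspG ∋ v ↦ mdlV v ∈ MdlS` (even sites of the turned corner lattice),
height `H = K / 2`, plane law `mdlPln c` of `Defs/MODEL`.
* `asiArr b h = ∑ b_v H(v)`;  `asiCov c b b'` = plane covariance of two arrays;  `asiVg c v = E (H v - H 0)²`
* `AsiHt c` = what the instance consumes on the plane functional (twin of `PlnHt` of R291): existence of the limit and invariance under the even translations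
* primal row `y = 0` = the antidiagonal `s.1 + s.2 = 0` of `MdlS` (straddling plaquettes); primal diagonal `x = y` = the axial row `s.2 = 0` of `MdlS` (Markov)
-/

set_option autoImplicit false

namespace Claimed.Agent.R292

open Claims Claims.C0468 MeasureTheory Filter Topology

/-- pairing of an array on the primal lattice with the height `H = K / 2` -/
noncomputable def asiArr (b : AspG →₀ ℝ) (h : MdlS → ℤ) : ℝ := b.sum fun v x => x * ((h (mdlV v) : ℝ) / 2)

/-- plane covariance of two arrays -/
noncomputable def asiCov (c : ℝ) (b b' : AspG →₀ ℝ) : ℝ := mdlPln c fun h => asiArr b h * asiArr b' h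

/-- the variogram of the plane law on the primal lattice -/
noncomputable def asiVg (c : ℝ) (v : AspG) : ℝ := mdlPln c fun h => (((h (mdlV v) : ℝ) - (h (mdlV 0) : ℝ)) / 2) ^ 2

/-- what the instance consumes on the plane functional -/
structure AsiHt (c : ℝ) : Prop where
  /-- [DKLM Thm 17.1]: the limit defining `mdlPln` exists on local gradient observables -/
  lim : ∀ (S : Finset MdlS) (G : (MdlS → ℤ) → ℝ), MdlLoc S G → MdlGrad G →
    Tendsto (fun R : ℕ => mdlFz c (rswBox 0 R) G) atTop (𝓝 (mdlPln c G))
  /-- invariance of the plane law under the parity preserving translations -/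
  trans : ∀ (S : Finset MdlS) (G : (MdlS → ℤ) → ℝ) (w : MdlS), (w.1 + w.2) % 2 = 0 → MdlLoc S G → MdlGrad G →
    mdlPln c (fun h => G (fun u => h (u + w))) = mdlPln c G

end Claimed.Agent.R292
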