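import Claimed.Agent.R292.Api

/-!
# Row 292 (S0540), Defs/Screen : THE VOCABULARY OF THE UNIT "SCREEN"      (owner helper229, head of SCREEN; prefix `scr`)

AT paper, Section 5 (screening a Laplace insertion), in FINITE flat volume, on the frozen Def_0468 through `R292/Api.lean`.
* `scrE t F A`        flat expectation of ANY observable `A` of the pair of spins (`atExpect` is the case `A = ψ ∘ at92X δ φ`)
* `scrSq z r`         closed square of centre `z`, half side `r`
* `ScrFlat δ F`       flat domain at mesh `δ`: the frontier of its region is a Jordan curve (what `IsAdmissibleApprox` gives at each `n`)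
* `ScrExt δ F Q A`    `A` is an exterior observable of `Q`: it only reads the two spins at the corners / face centres outside `Q`
-/

set_option autoImplicit false

namespace Claimed.Agent.R292

open Claims Claims.C0468

/-- flat expectation of an observable of the pair of spins. -/
noncomputable def scrE (t : ℝ) (F : Finset (ℤ × ℤ)) (A : at92Cfg F → ℝ) : ℝ :=
  (∑ p ∈ at92Adm F, at92W t p * A p) / ∑ p ∈ at92Adm F, at92W t p

/-- closed square of centre `z` and half side `r`. -/
def scrSq (z : ℝ × ℝ) (r : ℝ) : Set (ℝ × ℝ) :=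
  Set.Icc (z.1 - r) (z.1 + r) ×ˢ Set.Icc (z.2 - r) (z.2 + r)

/-- flat domain at mesh `δ`. -/
def ScrFlat (δ : ℝ) (F : Finset (ℤ × ℤ)) : Prop :=
  ∃ γ : Circle → ℝ × ℝ, Continuous γ ∧ Function.Injective γ ∧ Set.range γ = frontier (faceRegionSq δ F)

/-- exterior observable of `Q`: unchanged when the spins at corners in `Q` and at faces with centre in `Q` change. -/
def ScrExt (δ : ℝ) (F : Finset (ℤ × ℤ)) (Q : Set (ℝ × ℝ)) (A : at92Cfg F → ℝ) : Prop :=
  ∀ p p' : at92Cfg F,
    (∀ v : cornersOf F, ((δ * (v.1.1 : ℝ), δ * (v.1.2 : ℝ)) : ℝ × ℝ) ∉ Q → p.1 v = p'.1 v) →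
    (∀ f : F, ((δ * ((f.1.1 : ℝ) + 1 / 2), δ * ((f.1.2 : ℝ) + 1 / 2)) : ℝ × ℝ) ∉ Q → p.2 f = p'.2 f) →
    A p = A p'

/-- the frozen expectation is a `scrE`. -/
theorem scr_expect_eq (t δ : ℝ) (F : Finset (ℤ × ℤ)) (φ : ℝ × ℝ → ℝ) (ψ : ℝ → ℝ) :
    atExpect t δ F φ ψ = scrE t F (fun p => ψ (at92X δ φ p)) :=
  at92_expect_eq t δ F φ ψ

/-- what the frozen approximation gives at each `n`. -/
theorem scr_flat_of_approx {D : Set (ℝ × ℝ)} {δ : ℕ → ℝ} {F : ℕ → Finset (ℤ × ℤ)}
    (happ : IsAdmissibleApprox D δ F) (n : ℕ) : ScrFlat (δ n) (F n) := by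
  obtain ⟨-, -, -, γ, γs, -, -, -, hs, -⟩ := happ
  exact ⟨γs n, (hs n).1, (hs n).2.1, (hs n).2.2⟩

end Claimed.Agent.R292
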