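import Claimed.Agent.R292.Defs.ScreenPl
import Claimed.Agent.R292.Defs.SPEC
import Claimed.Agent.R292.Defs.Screen
import Claimed.Agent.R292.Screen.Place232

/-!
# Row 292 (S0540), Defs/ScreenIns : INSERTIONS, WINDOWS, PATTERNS, DATA `Y = (S_δ, C_δ)`      (owner helper229, head of SCREEN; prefix `scr`)

Vocabulary of `Defs/RSW` (`ω = (S, D, O)`), embedding `scr232P δ v = (δ v.1, δ v.2)` of Place232.
* `scrS`, `scrD`       spin signs;  `scrStep ω e` height step `H(end e) - H(e.1)` read on the face `e.1`;  `scrInc ω v₀ v` increment along the L-shaped path (first horizontal, then vertical)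
* `scrArr b v₀ ω`      the insertion `∑_v b_v (H v - H v₀)`: a LOCAL function of `(S, D)`, the same in every domain and in the plane
* `scrIns δ z φ`       THE Laplace insertion: array = cell integrals `aspW δ (lap2 φ)` of SPEC (exactly neutral), base point `⌊z / δ⌋`
* `ScrIn δ U X`        `X` reads only the corners in `U`, the faces whose lower left corner is in `U`, the edges with both ends in `U`
* `scrPat δ U ω`       the complete `(s, W)` pattern of `ω` in `U`;  `scrPatI δ U π` indicator of the pattern of `π`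
* `scrY δ blk sel ω`   the data `Y = (patterns in the four blocks, d-colours on the pattern-measurable set sel)`
* `scrHull`            the four hulls `T D L R` of `scr232Obj` (solid rectangles)
-/

set_option autoImplicit false

namespace Claimed.Agent.R292

open Claims Claims.C0468 Filter Topology

/-- primal spin sign. -/
def scrS (ω : RswCfg) (v : ℤ × ℤ) : ℝ := if v ∈ ω.S then 1 else -1

/-- face spin sign. -/
def scrD (ω : RswCfg) (f : ℤ × ℤ) : ℝ := if f ∈ ω.D then 1 else -1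

/-- height step along the edge `e`, read on the face `e.1`. -/
noncomputable def scrStep (ω : RswCfg) (e : (ℤ × ℤ) × Bool) : ℝ := (scrS ω e.1 - scrS ω (rswEnd e)) * scrD ω e.1 / 2

/-- oriented sum from `a` to `b`. -/
noncomputable def scrOsum (a b : ℤ) (g : ℤ → ℝ) : ℝ :=
  if a ≤ b then ∑ x ∈ Finset.Ico a b, g x else -∑ x ∈ Finset.Ico b a, g x

/-- height increment from `v₀` to `v` along the L-shaped path. -/
noncomputable def scrInc (ω : RswCfg) (v₀ v : ℤ × ℤ) : ℝ :=
  scrOsum v₀.1 v.1 (fun x => scrStep ω ((x, v₀.2), false)) + scrOsum v₀.2 v.2 (fun y => scrStep ω ((v.1, y), true))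

/-- the insertion of an array. -/
noncomputable def scrArr (b : (ℤ × ℤ) →₀ ℝ) (v₀ : ℤ × ℤ) (ω : RswCfg) : ℝ := b.sum fun v x => x * scrInc ω v₀ v

/-- the Laplace insertion. -/
noncomputable def scrIns (δ : ℝ) (z : ℝ × ℝ) (φ : ℝ × ℝ → ℝ) (ω : RswCfg) : ℝ :=
  scrArr (aspW δ (lap2 φ)) (⌊z.1 / δ⌋, ⌊z.2 / δ⌋) ω

/-- `X` reads only inside `U`. -/
def ScrIn (δ : ℝ) (U : Set (ℝ × ℝ)) (X : RswCfg → ℝ) : Prop :=
  ∀ ω ω' : RswCfg, (∀ v, scr232P δ v ∈ U → (v ∈ ω.S ↔ v ∈ ω'.S)) → (∀ f, scr232P δ f ∈ U → (f ∈ ω.D ↔ f ∈ ω'.D)) →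
    (∀ e : (ℤ × ℤ) × Bool, scr232P δ e.1 ∈ U → scr232P δ (rswEnd e) ∈ U → (e ∈ ω.O ↔ e ∈ ω'.O)) → X ω = X ω'

/-- type of a complete pattern. -/
abbrev ScrPatT : Type := Finset (ℤ × ℤ) × Finset ((ℤ × ℤ) × Bool)

open Classical in
/-- the complete `(s, W)` pattern of `ω` in `U`. -/
noncomputable def scrPat (δ : ℝ) (U : Set (ℝ × ℝ)) (ω : RswCfg) : ScrPatT :=
  (ω.S.filter fun v => scr232P δ v ∈ U, ω.O.filter fun e => scr232P δ e.1 ∈ U ∧ scr232P δ (rswEnd e) ∈ U)

open Classical in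
/-- indicator of the pattern of `π` in `U`. -/
noncomputable def scrPatI (δ : ℝ) (U : Set (ℝ × ℝ)) (π ω : RswCfg) : ℝ := if scrPat δ U ω = scrPat δ U π then 1 else 0

/-- the patterns in the four blocks. -/
noncomputable def scrPats (δ : ℝ) (blk : Fin 4 → Set (ℝ × ℝ)) (ω : RswCfg) : Fin 4 → ScrPatT := fun i => scrPat δ (blk i) ω

/-- the data `Y = (S_δ, C_δ)`. -/
noncomputable def scrY (δ : ℝ) (blk : Fin 4 → Set (ℝ × ℝ)) (sel : (Fin 4 → ScrPatT) → Finset (ℤ × ℤ)) (ω : RswCfg) :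
    (Fin 4 → ScrPatT) × Finset (ℤ × ℤ) :=
  (scrPats δ blk ω, ω.D ∩ sel (scrPats δ blk ω))

/-- the selected colour sites lie in the cores: at distance `≥ c0` from the complement of their block. -/
def ScrCore (δ c0 : ℝ) (blk : Fin 4 → Set (ℝ × ℝ)) (sel : (Fin 4 → ScrPatT) → Finset (ℤ × ℤ)) : Prop :=
  ∀ π, ∀ f ∈ sel π, ∃ i, Metric.closedBall (scr232P δ f) c0 ⊆ blk i

/-- the hulls of the four blocks. -/
def scrHull (x0 y0 s w h g r : ℝ) (i : Fin 4) : Set (ℝ × ℝ) :=
  scr232Obj x0 y0 s w h g r (![Scr232Kind.T, Scr232Kind.D, Scr232Kind.L, Scr232Kind.R] i)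

/-- the numerical conditions of `scr232_scene`. -/
structure ScrScene (s w h g r : ℝ) : Prop where
  hg : 0 < g
  hhs : h + g ≤ s
  hw : h < w
  hws : w ≤ s
  hr0 : 0 < r
  hr : r ≤ h - g
  hr8 : 8 * r ≤ w - h
  /-- the side blocks fit in squares inside the band (pattern comparison S3 is typed for square boxes) -/
  hL : s - w ≤ 2 * (h - g)

end Claimed.Agent.R292
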