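import Claimed.Agent.R292.Defs.RSW
import Claimed.Agent.R291.Pin.Cont

/-!
# Row 292 (S0540), Defs/ScreenPl : PLANE LAW OF `(S, D, O)`, LATTICE SYMMETRIES, REFLECTION FRAMES      (owner helper229, head of SCREEN; prefix `scr`)

Vocabulary of `Defs/RSW` (122): a configuration is `ω = (S, D, O)` = plus primal spins, plus face spins, open `W` edges; flat law `rswE t F b`.
* `scrPl t X`       plane expectation of a local observable = limit along the boxes (`exit_rsw_plane` of 122: the limit exists, along ALL flat exhaustions)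
* `ScrMapD`, `scrAct`   a map of corners / faces / edges acts on configurations;   `scrTr a` translation,
  `scrRe j` reflection in the row through `0` with normal `scrNor j`:  `j = 0`: `e_y`, `j = 1`: `(1,1)`, `j = 2`: `e_x`, `j = 3`: `(-1,1)`   (the 4 frames of AT paper Lemma 4.1)
* `scrLev j v`      level of the corner `v` in the frame `j`;   `ScrUp j X`: `X` reads only corners / faces (named by their lower left corner) of level `≥ 1` and edges with both ends of level `≥ 1`
* `scrSh a X`, `scrTh j X`   translated / reflected observable;   `scrFm t j A B = scrPl t (θ_j A * B)` the reflection form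
-/

set_option autoImplicit false

namespace Claimed.Agent.R292

open Claims Claims.C0468 Filter Topology

/-- local observable. -/
def ScrLoc (X : RswCfg → ℝ) : Prop := ∃ (R : Finset (ℤ × ℤ)) (R' : Finset ((ℤ × ℤ) × Bool)), RswLoc R R' X

/-- plane expectation. -/
noncomputable def scrPl (t : ℝ) (X : RswCfg → ℝ) : ℝ := limUnder atTop fun n : ℕ => rswE t (rswBox 0 n) true X

/-- a map of the corners, of the faces and of the edges. -/
structure ScrMapD where
  c : ℤ × ℤ → ℤ × ℤ
  f : ℤ × ℤ → ℤ × ℤ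
  e : (ℤ × ℤ) × Bool → (ℤ × ℤ) × Bool

/-- action on configurations. -/
def scrAct (g : ScrMapD) (ω : RswCfg) : RswCfg := ⟨ω.S.image g.c, ω.D.image g.f, ω.O.image g.e⟩

/-- translation by `a`. -/
def scrTr (a : ℤ × ℤ) : ScrMapD := ⟨fun v => v + a, fun v => v + a, fun e => (e.1 + a, e.2)⟩

/-- the four normals. -/
def scrNor (j : Fin 4) : ℤ × ℤ := ![(0, 1), (1, 1), (1, 0), (-1, 1)] j

/-- level of a corner in the frame `j`. -/
def scrLev (j : Fin 4) (v : ℤ × ℤ) : ℤ := (scrNor j).1 * v.1 + (scrNor j).2 * v.2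

/-- reflection in the row of level `0` of the frame `j`. -/
def scrRe (j : Fin 4) : ScrMapD :=
  ![⟨fun v => (v.1, -v.2), fun v => (v.1, -v.2 - 1), fun e => if e.2 then ((e.1.1, -e.1.2 - 1), true) else ((e.1.1, -e.1.2), false)⟩,
    ⟨fun v => (-v.2, -v.1), fun v => (-v.2 - 1, -v.1 - 1),
      fun e => if e.2 then ((-e.1.2 - 1, -e.1.1), false) else ((-e.1.2, -e.1.1 - 1), true)⟩,
    ⟨fun v => (-v.1, v.2), fun v => (-v.1 - 1, v.2), fun e => if e.2 then ((-e.1.1, e.1.2), true) else ((-e.1.1 - 1, e.1.2), false)⟩,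
    ⟨fun v => (v.2, v.1), fun v => (v.2, v.1), fun e => ((e.1.2, e.1.1), !e.2)⟩] j

/-- `X` lives strictly above the row of level `0` of the frame `j`. -/
def ScrUp (j : Fin 4) (X : RswCfg → ℝ) : Prop :=
  ∃ (R : Finset (ℤ × ℤ)) (R' : Finset ((ℤ × ℤ) × Bool)), RswLoc R R' X ∧ (∀ v ∈ R, 1 ≤ scrLev j v) ∧
    ∀ e ∈ R', 1 ≤ scrLev j e.1 ∧ 1 ≤ scrLev j (rswEnd e)

/-- the observable `X` moved by `a` (it reads at `v + a` what `X` reads at `v`). -/
def scrSh (a : ℤ × ℤ) (X : RswCfg → ℝ) : RswCfg → ℝ := fun ω => X (scrAct (scrTr (-a)) ω)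

/-- the reflected observable. -/
def scrTh (j : Fin 4) (X : RswCfg → ℝ) : RswCfg → ℝ := fun ω => X (scrAct (scrRe j) ω)

/-- the reflection form of the frame `j`. -/
noncomputable def scrFm (t : ℝ) (j : Fin 4) (A B : RswCfg → ℝ) : ℝ := scrPl t fun ω => scrTh j A ω * B ω

end Claimed.Agent.R292
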