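import Claimed.Agent.R292.Defs.ScreenIns

/-!
# Row 292 (S0540), Defs/ScreenSep : THE LAYOUT OF THE SEPARATOR (AT paper Sec 5.3)      (owner helper229, head of SCREEN; prefix `scr` / `ScrLay`)

Design: `origin/helper229:notes/R292_SEP_DESIGN_229.md`.   Finite volume, law `μ = rswE t F true` of `Defs/RSW`.
* `ScrLay` = centre `(x0,y0)`, scene `s w h g r`, `M` trials per gap, ratio `q`;  `Rt = (s-w)/(2M)` half size of a trial, `wh = q Rt` half size of a hole, `c1 = Rt/5`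
* gaps `k : Fin 4`: `0` left top, `1` right top, `2` left bottom, `3` right bottom;  `cen k j` centre of the trial `j < M`;  `hole k j` OPEN sup-ball
* `blk i = hull i \ holes`;  `core i` (arm targets, core segments; margin `c1`),  `coreP i` (observed colours; margin `c1 / 2`; avoids the shielding squares `closedBall (cen k j) (Rt/10)`)
* `adj k b` the block next to the gap `k`: `b = false` the bar (`T`/`D`), `b = true` the side block (`L`/`R`)
* `ScrArm`, `ScrTrial`, `scrSelJ`, `scrSelA`, `scrBridge`: arms, success, first successful trial, selected ports, bridge; all evaluated on `scrPc Λ δ ω` = the configuration rebuilt from the block patterns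
* `ScrBr` bridge pins, `scrRho`, `scrQ` the law `ℚ_δ`, `ScrCirc` shielding circuit (`RswSep` of 122), `ScrOff` observables of (patterns + everything off the shielding squares)
-/

set_option autoImplicit false

namespace Claimed.Agent.R292

open Claims Claims.C0468 Filter Topology

/-- the layout. -/
structure ScrLay where
  x0 : ℝ
  y0 : ℝ
  s : ℝ
  w : ℝ
  h : ℝ
  g : ℝ
  r : ℝ
  M : ℕ
  q : ℝ

namespace ScrLay

variable (Λ : ScrLay)

/-- half size of a trial square. -/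
noncomputable def Rt : ℝ := (Λ.s - Λ.w) / (2 * Λ.M)

/-- half size of a hole. -/
noncomputable def wh : ℝ := Λ.q * Λ.Rt

/-- margin of the cores. -/
noncomputable def c1 : ℝ := Λ.Rt / 5

/-- centre. -/
def z : ℝ × ℝ := (Λ.x0, Λ.y0)

/-- centre of the trial `j` of the gap `k`. -/
noncomputable def cen (k : Fin 4) (j : ℕ) : ℝ × ℝ :=
  (Λ.x0 + (![-1, 1, -1, 1] k : ℝ) * (Λ.w + (2 * j + 1) * Λ.Rt), Λ.y0 + (![1, 1, -1, -1] k : ℝ) * Λ.h)

/-- hulls of the blocks `T D L R`. -/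
def hull (i : Fin 4) : Set (ℝ × ℝ) := scrHull Λ.x0 Λ.y0 Λ.s Λ.w Λ.h Λ.g Λ.r i

/-- the holes. -/
noncomputable def hole (k : Fin 4) (j : ℕ) : Set (ℝ × ℝ) := Metric.ball (Λ.cen k j) Λ.wh

/-- the blocks. -/
noncomputable def blk (i : Fin 4) : Set (ℝ × ℝ) := Λ.hull i \ ⋃ (k : Fin 4) (j : ℕ) (_ : j < Λ.M), Λ.hole k j

/-- the cores (arm targets). -/
noncomputable def core (i : Fin 4) : Set (ℝ × ℝ) := {p | Metric.closedBall p Λ.c1 ⊆ Λ.hull i}

/-- the larger cores (observed colours). -/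
noncomputable def coreP (i : Fin 4) : Set (ℝ × ℝ) := {p | Metric.closedBall p (Λ.c1 / 2) ⊆ Λ.hull i}

/-- the shielding squares. -/
noncomputable def shield : Set (ℝ × ℝ) := ⋃ (k : Fin 4) (j : ℕ) (_ : j < Λ.M), Metric.closedBall (Λ.cen k j) (Λ.Rt / 10)

/-- the block next to the gap `k`. -/
def adj (k : Fin 4) (b : Bool) : Fin 4 := if b then ![2, 3, 2, 3] k else ![0, 0, 1, 1] k

/-- the numerical conditions. -/
structure Ok : Prop where
  sc : ScrScene Λ.s Λ.w Λ.h Λ.g Λ.r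
  hM : 0 < Λ.M
  hq : 0 < Λ.q
  hq' : Λ.q ≤ 1 / 40
  hg : Λ.g < Λ.wh
  hws : Λ.w < Λ.s
  hK : Λ.r + Λ.Rt ≤ Λ.h - Λ.g
  hT : Λ.h + Λ.g + Λ.Rt ≤ Λ.s

end ScrLay

/-- the configuration rebuilt from four patterns. -/
def scrOfPat (π : Fin 4 → ScrPatT) : RswCfg :=
  ⟨Finset.univ.biUnion fun i => (π i).1, ∅, Finset.univ.biUnion fun i => (π i).2⟩

/-- the pattern configuration of `ω`. -/
noncomputable def scrPc (Λ : ScrLay) (δ : ℝ) (ω : RswCfg) : RswCfg := scrOfPat (scrPats δ Λ.blk ω)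

/-- one step along a good (open, both ends plus) edge inside `U`. -/
def ScrGStep (δ : ℝ) (U : Set (ℝ × ℝ)) (ω : RswCfg) (v v' : ℤ × ℤ) : Prop :=
  scr232P δ v ∈ U ∧ scr232P δ v' ∈ U ∧
    ∃ e : (ℤ × ℤ) × Bool, RswGood true ω e ∧ ((e.1 = v ∧ rswEnd e = v') ∨ (e.1 = v' ∧ rswEnd e = v))

/-- the corner `a` of the block `adj k b` is next to the hole `(k, j)`, in the middle half of its side. -/
def ScrPort (Λ : ScrLay) (δ : ℝ) (k : Fin 4) (j : ℕ) (b : Bool) (a : ℤ × ℤ) : Prop :=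
  scr232P δ a ∈ Λ.blk (ScrLay.adj k b) ∧ |δ * a.1 - (Λ.cen k j).1| ≤ Λ.wh / 2 ∧ |δ * a.2 - (Λ.cen k j).2| < Λ.wh + δ

/-- an arm from the port `a` to the core, inside the half trial square. -/
def ScrArm (Λ : ScrLay) (δ : ℝ) (k : Fin 4) (j : ℕ) (b : Bool) (ω : RswCfg) (a : ℤ × ℤ) : Prop :=
  ScrPort Λ δ k j b a ∧ ∃ c : ℤ × ℤ, scr232P δ c ∈ Λ.core (ScrLay.adj k b) ∧
    Relation.ReflTransGen (ScrGStep δ (Λ.blk (ScrLay.adj k b) ∩ Metric.closedBall (Λ.cen k j) (Λ.Rt / 2)) ω) a c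

/-- the trial `(k, j)` succeeds. -/
def ScrTrial (Λ : ScrLay) (δ : ℝ) (k : Fin 4) (j : ℕ) (ω : RswCfg) : Prop := ∀ b : Bool, ∃ a, ScrArm Λ δ k j b ω a

/-- the gap `k` has a successful trial. -/
def ScrGapOk (Λ : ScrLay) (δ : ℝ) (k : Fin 4) (ω : RswCfg) : Prop := ∃ j, j < Λ.M ∧ ScrTrial Λ δ k j (scrPc Λ δ ω)

/-- all four gaps have a successful trial (a function of the block patterns). -/
def ScrSucc (Λ : ScrLay) (δ : ℝ) (ω : RswCfg) : Prop := ∀ k, ScrGapOk Λ δ k ω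

open Classical in
/-- the first successful trial. -/
noncomputable def scrSelJ (Λ : ScrLay) (δ : ℝ) (k : Fin 4) (ω : RswCfg) : ℕ :=
  if h : ScrGapOk Λ δ k ω then Nat.find h else 0

open Classical in
/-- the selected port. -/
noncomputable def scrSelA (Λ : ScrLay) (δ : ℝ) (k : Fin 4) (b : Bool) (ω : RswCfg) : ℤ × ℤ :=
  if h : ∃ a, ScrArm Λ δ k (scrSelJ Λ δ k ω) b (scrPc Λ δ ω) a then Classical.choose h else 0

/-- vertical lattice segment. -/
noncomputable def scrVseg (x y1 y2 : ℤ) : Finset ((ℤ × ℤ) × Bool) := (Finset.Ico (min y1 y2) (max y1 y2)).image fun y => ((x, y), true)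

/-- horizontal lattice segment. -/
noncomputable def scrHseg (y x1 x2 : ℤ) : Finset ((ℤ × ℤ) × Bool) := (Finset.Ico (min x1 x2) (max x1 x2)).image fun x => ((x, y), false)

/-- the bridge of the gap `k`: vertical, across on the middle row, vertical. -/
noncomputable def scrBridge (Λ : ScrLay) (δ : ℝ) (k : Fin 4) (ω : RswCfg) : Finset ((ℤ × ℤ) × Bool) :=
  scrVseg (scrSelA Λ δ k false ω).1 (scrSelA Λ δ k false ω).2 ⌊(Λ.cen k 0).2 / δ⌋ ∪
    scrHseg ⌊(Λ.cen k 0).2 / δ⌋ (scrSelA Λ δ k false ω).1 (scrSelA Λ δ k true ω).1 ∪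
    scrVseg (scrSelA Λ δ k true ω).1 ⌊(Λ.cen k 0).2 / δ⌋ (scrSelA Λ δ k true ω).2

/-- the bridges selected by the patterns of `ω₀` are open and plus in `ω`. -/
def ScrBr (Λ : ScrLay) (δ : ℝ) (ω₀ ω : RswCfg) : Prop := ∀ k, ∀ e ∈ scrBridge Λ δ k ω₀, RswGood true ω e

open Classical in
/-- density of `ℚ_δ` with respect to `μ`. -/
noncomputable def scrRho (t : ℝ) (F : Finset (ℤ × ℤ)) (Λ : ScrLay) (δ : ℝ) (ω : RswCfg) : ℝ :=
  if ScrSucc Λ δ ω then
    (if ScrBr Λ δ ω ω then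
      rswP t F true (fun ω' => scrPats δ Λ.blk ω' = scrPats δ Λ.blk ω) /
        rswP t F true (fun ω' => scrPats δ Λ.blk ω' = scrPats δ Λ.blk ω ∧ ScrBr Λ δ ω ω')
    else 0)
  else 1

/-- the law `ℚ_δ`. -/
noncomputable def scrQ (t : ℝ) (F : Finset (ℤ × ℤ)) (Λ : ScrLay) (δ : ℝ) (A : RswCfg → ℝ) : ℝ :=
  rswE t F true fun ω => A ω * scrRho t F Λ δ ω

open Classical in
/-- shielding circuit around the selected hole of the gap `k`. -/
def ScrCirc (F : Finset (ℤ × ℤ)) (Λ : ScrLay) (δ : ℝ) (k : Fin 4) (ω : RswCfg) : Prop :=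
  RswSep F true ω (F.filter fun f => scr232P δ f ∈ Metric.closedBall (Λ.cen k (scrSelJ Λ δ k ω)) (2 * Λ.wh))
    (F.filter fun f => scr232P δ f ∉ Metric.closedBall (Λ.cen k (scrSelJ Λ δ k ω)) (Λ.Rt / 10 - 2 * δ))

/-- `A` reads the block patterns and everything off the shielding squares. -/
def ScrOff (Λ : ScrLay) (δ : ℝ) (A : RswCfg → ℝ) : Prop :=
  ∀ ω ω' : RswCfg, scrPats δ Λ.blk ω = scrPats δ Λ.blk ω' →
    (∀ v, scr232P δ v ∉ Λ.shield → (v ∈ ω.S ↔ v ∈ ω'.S)) → (∀ f, scr232P δ f ∉ Λ.shield → (f ∈ ω.D ↔ f ∈ ω'.D)) →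
    (∀ e : (ℤ × ℤ) × Bool, scr232P δ e.1 ∉ Λ.shield → scr232P δ (rswEnd e) ∉ Λ.shield → (e ∈ ω.O ↔ e ∈ ω'.O)) → A ω = A ω'

open Classical in
/-- the observed colour sites: all faces of the larger cores. -/
noncomputable def scrCoreSel (Λ : ScrLay) (δ : ℝ) : Finset (ℤ × ℤ) :=
  ((Finset.Icc (-⌈(|Λ.x0| + |Λ.y0| + Λ.s) / δ⌉) ⌈(|Λ.x0| + |Λ.y0| + Λ.s) / δ⌉) ×ˢ
    (Finset.Icc (-⌈(|Λ.x0| + |Λ.y0| + Λ.s) / δ⌉) ⌈(|Λ.x0| + |Λ.y0| + Λ.s) / δ⌉)).filter fun f => ∃ i, scr232P δ f ∈ Λ.coreP i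

/-- the data `Y` of the layout. -/
noncomputable def scrYL (Λ : ScrLay) (δ : ℝ) (ω : RswCfg) : (Fin 4 → ScrPatT) × Finset (ℤ × ℤ) :=
  scrY δ Λ.blk (fun _ => scrCoreSel Λ δ) ω

/-- `F` contains the window of the layout. -/
def ScrFits (Λ : ScrLay) (δ : ℝ) (F : Finset (ℤ × ℤ)) : Prop :=
  ∀ f : ℤ × ℤ, scr232P δ f ∈ Metric.closedBall Λ.z (Λ.s + 1) → f ∈ F

end Claimed.Agent.R292
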